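import Crest.Agent.Lib.PT.OfTM

/-!
# Machines with another input alphabet; introduction rules for `PolyTimePred`, `PolyTimePred₂`,
`RandPolyTime`-like maps, `InP`, `InNP`.
-/

set_option autoImplicit false
set_option linter.dupNamespace false

namespace Crest.Agent.Lib.PT

open Turing Function

namespace Front

section machine

variable (M : FinTM2) (A : Type) (h : A → List (M.Γ M.k₀))

/-- stack alphabets of the machine with a front end -/
@[reducible] def Gam : Option M.K → Type
  | none => A
  | some k => M.Γ k

/-- labels -/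
abbrev Lb : Type := (Unit ⊕ A) ⊕ M.Λ

/-- internal states -/
abbrev Sg : Type := Option A × M.σ

variable {M A}

/-- the stacks of the combined machine -/
def stk' (T : List A) (S : ∀ k, List (M.Γ k)) : ∀ o, List (Gam M A o)
  | none => T
  | some k => S k

theorem update_stk'_some (T : List A) (S : ∀ k, List (M.Γ k)) (k : M.K) (l : List (M.Γ k)) :
    update (stk' T S) (some k) l = stk' T (update S k l) := by
  funext o
  rcases o with _ | j
  · rfl
  · by_cases hj : j = k
    · subst hj
      rw [update_self]
      simp [stk']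
    · have : (some j : Option M.K) ≠ some k := fun e => hj (Option.some.inj e)
      rw [update_of_ne this]
      simp [stk', hj]

theorem update_stk'_none (T T' : List A) (S : ∀ k, List (M.Γ k)) :
    update (stk' T S) none T' = stk' T' S := by
  funext o
  rcases o with _ | j
  · rw [update_self]; rfl
  · rw [update_of_ne (by simp)]; rfl

/-- the statements of `M` inside the combined machine -/
def lift : TM2.Stmt M.Γ M.Λ M.σ → TM2.Stmt (Gam M A) (Lb M A) (Sg M A)
  | .push k f q => .push (some k) (fun v => f v.2) (lift q)
  | .peek k f q => .peek (some k) (fun v a => (v.1, f v.2 a)) (lift q)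
  | .pop k f q => .pop (some k) (fun v a => (v.1, f v.2 a)) (lift q)
  | .load a q => .load (fun v => (v.1, a v.2)) (lift q)
  | .branch p q₁ q₂ => .branch (fun v => p v.2) (lift q₁) (lift q₂)
  | .goto l => .goto (fun v => Sum.inr (l v.2))
  | .halt => .halt

/-- configurations of `M` inside the combined machine -/
def liftCfg (a : Option A) (T : List A) (c : TM2.Cfg M.Γ M.Λ M.σ) :
    TM2.Cfg (Gam M A) (Lb M A) (Sg M A) :=
  ⟨c.l.map Sum.inr, (a, c.var), stk' T c.stk⟩

theorem stepAux_lift (q : TM2.Stmt M.Γ M.Λ M.σ) (a : Option A) (T : List A) (v : M.σ)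
    (S : ∀ k, List (M.Γ k)) :
    TM2.stepAux (lift q) (a, v) (stk' T S) = liftCfg a T (TM2.stepAux q v S) := by
  induction q generalizing v S with
  | push k f q ih =>
    simp only [lift, TM2.stepAux]
    rw [← ih, ← update_stk'_some]
    rfl
  | peek k f q ih =>
    simp only [lift, TM2.stepAux]
    rw [← ih]
    rfl
  | pop k f q ih =>
    simp only [lift, TM2.stepAux]
    rw [← ih, ← update_stk'_some]
    rfl
  | load b q ih =>
    simp only [lift, TM2.stepAux]
    rw [← ih]
  | branch p q₁ q₂ ih₁ ih₂ =>
    simp only [lift, TM2.stepAux]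
    cases p v
    · exact ih₂ v S
    · exact ih₁ v S
  | goto l => rfl
  | halt => rfl

/-- push the list `w` on the input stack of `M` -/
def pushes : List (M.Γ M.k₀) → TM2.Stmt (Gam M A) (Lb M A) (Sg M A) →
    TM2.Stmt (Gam M A) (Lb M A) (Sg M A)
  | [], q => q
  | b :: w, q => pushes w (.push (some M.k₀) (fun _ => b) q)

theorem stepAux_pushes (w : List (M.Γ M.k₀)) (q : TM2.Stmt (Gam M A) (Lb M A) (Sg M A))
    (v : Sg M A) (T : List A) (S : ∀ k, List (M.Γ k)) :
    TM2.stepAux (pushes w q) v (stk' T S) =
      TM2.stepAux q v (stk' T (update S M.k₀ (w ++ S M.k₀))) := by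
  induction w generalizing q with
  | nil => simp [pushes]
  | cons b w ih =>
    rw [pushes, ih]
    simp only [TM2.stepAux]
    congr 1
    refine (update_stk'_some T (update S M.k₀ (w ++ S M.k₀)) M.k₀
      (b :: (update S M.k₀ (w ++ S M.k₀)) M.k₀)).trans ?_
    simp

/-- statements of the combined machine -/
def prg : Lb M A → TM2.Stmt (Gam M A) (Lb M A) (Sg M A)
  | Sum.inl (Sum.inl _) => .pop none (fun v a => ((a : Option A), v.2)) (.goto fun v =>
      match v.1 with
      | none => Sum.inr M.main
      | some a => Sum.inl (Sum.inr a))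
  | Sum.inl (Sum.inr a) => pushes (h a) (.load (fun v => (none, v.2)) (.goto fun _ =>
      Sum.inl (Sum.inl ())))
  | Sum.inr l => lift (M.m l)

variable (M A)

/-- The machine `M` with a front end converting the input alphabet. -/
def front [Fintype A] : FinTM2 where
  K := Option M.K
  kDecidableEq := inferInstance
  kFin := letI := M.kFin; inferInstance
  k₀ := none
  k₁ := some M.k₁
  Γ := Gam M A
  Λ := Lb M A
  main := Sum.inl (Sum.inl ())
  ΛFin := letI := M.ΛFin; inferInstance
  σ := Sg M A
  initialState := (none, M.initialState)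
  σFin := letI := M.σFin; inferInstance
  Γk₀Fin := inferInstanceAs (Fintype A)
  m := prg h

variable {M A}

/-- iterated step functions -/
abbrev it {K : Type} [DecidableEq K] {Γ : K → Type} {Λ σ : Type} (m : Λ → TM2.Stmt Γ Λ σ) (n : ℕ)
    (c : Option (TM2.Cfg Γ Λ σ)) : Option (TM2.Cfg Γ Λ σ) :=
  (flip bind (TM2.step m))^[n] c

theorem it_lift (n : ℕ) (T : List A) (c : Option (TM2.Cfg M.Γ M.Λ M.σ)) :
    it (prg h) n (c.map (liftCfg none T)) = (it M.m n c).map (liftCfg none T) := by
  have hs : ∀ c : Option (TM2.Cfg M.Γ M.Λ M.σ), flip bind (TM2.step (prg h))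
      (c.map (liftCfg none T)) = (flip bind (TM2.step M.m) c).map (liftCfg none T) := by
    rintro (_ | ⟨_ | l, v, S⟩)
    · rfl
    · rfl
    · have := stepAux_lift (M.m l) none T v S
      exact congrArg some this
  induction n generalizing c with
  | zero => rfl
  | succ n ih =>
    simp only [it] at ih ⊢
    rw [iterate_succ_apply, iterate_succ_apply, hs, ih]

theorem it_front (l : List A) (v : Option A) (v₀ : M.σ) (S : ∀ k, List (M.Γ k)) :
    it (prg h) (2 * l.length + 1)
      (some ⟨some (Sum.inl (Sum.inl ())), (v, v₀), stk' l S⟩) =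
    some ⟨some (Sum.inr M.main), (none, v₀),
      stk' [] (update S M.k₀ (l.reverse.flatMap h ++ S M.k₀))⟩ := by
  induction l generalizing v S with
  | nil =>
    have : update S M.k₀ (([] : List A).reverse.flatMap h ++ S M.k₀) = S := by simp
    rw [this]
    have h0 : TM2.stepAux (prg h (Sum.inl (Sum.inl ()))) (v, v₀) (stk' [] S) =
        ⟨some (Sum.inr M.main), (none, v₀), update (stk' [] S) none []⟩ := rfl
    rw [update_stk'_none] at h0
    exact congrArg some h0
  | cons a l ih =>
    have e : 2 * (a :: l).length + 1 = (2 * l.length + 1) + 1 + 1 := by simp; ring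
    rw [e]
    simp only [it] at ih ⊢
    rw [iterate_succ_apply, iterate_succ_apply]
    have h1 : flip bind (TM2.step (prg h))
        (some ⟨some (Sum.inl (Sum.inl ())), (v, v₀), stk' (a :: l) S⟩) =
        some ⟨some (Sum.inl (Sum.inr a)), (some a, v₀), stk' l S⟩ := by
      have h0 : TM2.stepAux (prg h (Sum.inl (Sum.inl ()))) (v, v₀) (stk' (a :: l) S) =
          ⟨some (Sum.inl (Sum.inr a)), (some a, v₀), update (stk' (a :: l) S) none l⟩ := rfl
      rw [update_stk'_none] at h0
      exact congrArg some h0
    have h2 : flip bind (TM2.step (prg h))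
        (some ⟨some (Sum.inl (Sum.inr a)), (some a, v₀), stk' l S⟩) =
        some ⟨some (Sum.inl (Sum.inl ())), (none, v₀),
          stk' l (update S M.k₀ (h a ++ S M.k₀))⟩ := by
      show some (TM2.stepAux (pushes _ _) _ _) = _
      rw [stepAux_pushes]
      rfl
    rw [h1, h2, ih]
    simp

theorem initList_front [Fintype A] (l : List A) :
    initList (front M A h) l =
      (⟨some (Sum.inl (Sum.inl ())), (none, M.initialState), stk' l (fun _ => [])⟩ :
        TM2.Cfg (Gam M A) (Lb M A) (Sg M A)) := by
  unfold initList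
  congr 1
  funext o
  rcases o with _ | k
  · exact dif_pos rfl
  · exact dif_neg (show ¬ (some k : Option M.K) = none by simp)

theorem initList_stk (M : FinTM2) (l : List (M.Γ M.k₀)) :
    (initList M l).stk = update (fun k => ([] : List (M.Γ k))) M.k₀ l := by
  funext k
  by_cases hk : k = M.k₀
  · subst hk
    simp [initList]
  · rw [update_of_ne hk]
    simp [initList, hk]

theorem haltList_stk (M : FinTM2) (l : List (M.Γ M.k₁)) :
    (haltList M l).stk = update (fun k => ([] : List (M.Γ k))) M.k₁ l := by
  funext k
  by_cases hk : k = M.k₁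
  · subst hk
    simp [haltList]
  · rw [update_of_ne hk]
    simp [haltList, hk]

theorem haltList_front [Fintype A] (l : List (M.Γ M.k₁)) :
    haltList (front M A h) l =
      (liftCfg none [] (haltList M l) : TM2.Cfg (Gam M A) (Lb M A) (Sg M A)) := by
  unfold liftCfg
  rw [haltList_stk, ← update_stk'_some]
  unfold haltList
  congr 1
  funext o
  rcases o with _ | k
  · rw [update_of_ne (by simp)]
    exact dif_neg (show ¬ (none : Option M.K) = some M.k₁ by simp)
  · by_cases hk : k = M.k₁
    · subst hk
      rw [update_self]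
      exact dif_pos rfl
    · rw [update_of_ne (by simpa using hk)]
      exact dif_neg (show ¬ (some k : Option M.K) = some M.k₁ by simpa using hk)

/-- The combined machine runs `M` on the converted input. -/
theorem front_outputs [Fintype A] (l : List A) (out : List (M.Γ M.k₁)) {n : ℕ}
    (hM : it M.m n (some (initList M (l.reverse.flatMap h))) = some (haltList M out)) :
    it (prg h) (2 * l.length + 1 + n) (some (initList (front M A h) l)) =
      some (haltList (front M A h) out) := by
  rw [initList_front, haltList_front, add_comm]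
  unfold it
  rw [iterate_add_apply]
  have h1 := it_front h l none M.initialState (fun _ => [])
  unfold it at h1
  rw [h1]
  have h2 := it_lift h n [] (some (initList M (l.reverse.flatMap h)))
  rw [hM] at h2
  unfold it at h2
  refine Eq.trans ?_ h2
  congr 1
  show some _ = some _
  congr 1
  unfold liftCfg
  rw [initList_stk]
  simp
  exact ⟨rfl, rfl⟩

end machine

end Front

open Front

/-- Introduction rule: a poly-time function on coded lists over a finite alphabet is computed by a
machine whose input alphabet is that alphabet. -/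
theorem polyTimeComputable_of_ptf {α β Γα : Type} [PTCode Γα] [Finite Γα] {ea : α → List Γα}
    {eb : β → List Bool} {f : α → β} {g : List Γα → List Bool} (hg : PTF g)
    (h : ∀ a, g (ea a) = eb (f a)) : Crest.Complexity.PolyTimeComputable ea eb f := by
  classical
  let _ : Fintype Γα := Fintype.ofFinite Γα
  obtain ⟨B, hB⟩ := OfTM.exists_sz_le Γα
  -- raw function
  have h1 : PTF (fun l : List Γα => Bits.mk (g l.reverse)) :=
    PTF.bitsMk (PTF.comp hg (PTF.reverse PTF.id))
  obtain ⟨G, hG, hG'⟩ := h1
  obtain ⟨⟨⟨M, inA, outA⟩, time, outs⟩⟩ := hG.polyTime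
  let hh : Γα → List (M.Γ M.k₀) := fun a => (pair (enc a) []).map inA.symm
  have hflat : ∀ l : List Γα, l.flatMap hh = (enc l).map inA.symm := by
    intro l
    induction l with
    | nil => rfl
    | cons a l ih =>
      rw [List.flatMap_cons, ih, enc_cons]
      simp only [hh, pair, ← List.map_append]
      congr 1
      simp
  have key : ∀ a, ∃ n, n ≤ time.eval (B * 2 * (ea a).length + (ea a).length) ∧
      it M.m n (some (initList M ((ea a).reverse.flatMap hh))) =
        some (haltList M (List.map outA.symm (eb (f a)))) := by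
    intro a
    obtain ⟨⟨N, hN⟩, hle⟩ := outs (enc (ea a).reverse)
    refine ⟨N, hle.trans (eval_mono _ ?_), ?_⟩
    · show sz (ea a).reverse ≤ _
      have := sz_list_le (l := (ea a).reverse) (m := B) (fun b _ => hB b)
      rw [List.length_reverse] at this
      refine this.trans (le_of_eq ?_)
      ring
    · rw [hflat]
      have e : G (enc (ea a).reverse) = eb (f a) := by
        rw [hG']
        show g (ea a).reverse.reverse = eb (f a)
        rw [List.reverse_reverse, h]
      have e1 : List.map outA.symm (eb (f a)) = List.map outA.invFun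
          ((Computability.encodingList Bool).encode (G (enc (ea a).reverse))) := by
        rw [e]; rfl
      rw [e1]
      exact hN
  refine ⟨{ tm := front M Γα hh
            inputAlphabet := Equiv.refl _
            outputAlphabet := outA
            time := 2 * Polynomial.X + 1 +
              time.comp (Polynomial.C (B * 2) * Polynomial.X + Polynomial.X)
            outputsFun := fun a => ?_ }⟩
  have e1 : ∀ y : List Γα, List.map (Equiv.refl Γα).invFun y = y := fun y => List.map_id y
  have h2 := front_outputs hh (ea a) (List.map outA.symm (eb (f a))) (key a).choose_spec.2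
  have h3 : ∀ y : List Γα, y = ea a →
      it (prg hh) (2 * (ea a).length + 1 + (key a).choose) (some (initList (front M Γα hh) y)) =
      some (haltList (front M Γα hh) (List.map outA.symm (eb (f a)))) := by
    rintro y rfl
    exact h2
  exact
    { steps := 2 * (ea a).length + 1 + (key a).choose
      evals_in_steps := h3 _ (e1 _)
      steps_le_m := by
        have := (key a).choose_spec.1
        simp only [Polynomial.eval_add, Polynomial.eval_mul, Polynomial.eval_ofNat,
          Polynomial.eval_X, Polynomial.eval_one, Polynomial.eval_comp, Polynomial.eval_C]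
        omega }

/-! ### predicates, pairs -/

open Crest.Complexity



/-- the first component of a presented pair -/
def unL (l : List (Bool ⊕ Bool)) : List Bool := l.filterMap (fun s => s.getLeft?)

/-- the second component of a presented pair -/
def unR (l : List (Bool ⊕ Bool)) : List Bool := l.filterMap (fun s => s.getRight?)

theorem unL_pairEnc (p : List Bool × List Bool) : unL (pairEnc p) = p.1 := by
  rw [pairEnc_eq, unL, List.filterMap_append, List.filterMap_map, List.filterMap_map]
  have h1 : (fun s : Bool ⊕ Bool => s.getLeft?) ∘ Sum.inl = some := rfl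
  have h2 : (fun s : Bool ⊕ Bool => s.getLeft?) ∘ Sum.inr = fun _ => none := rfl
  rw [h1, h2, List.filterMap_some, List.filterMap_eq_nil_iff.2 (by simp), List.append_nil]

theorem unR_pairEnc (p : List Bool × List Bool) : unR (pairEnc p) = p.2 := by
  rw [pairEnc_eq, unR, List.filterMap_append, List.filterMap_map, List.filterMap_map]
  have h1 : (fun s : Bool ⊕ Bool => s.getRight?) ∘ Sum.inr = some := rfl
  have h2 : (fun s : Bool ⊕ Bool => s.getRight?) ∘ Sum.inl = fun _ => none := rfl
  rw [h1, h2, List.filterMap_some, List.filterMap_eq_nil_iff.2 (by simp), List.nil_append]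

protected theorem PTF.unL : PTF unL := by
  refine PTF.filterMap (f := fun _ (s : Bool ⊕ Bool) => s.getLeft?) PTF.id ?_
  exact PTF.comp (g := fun s : Bool ⊕ Bool => s.getLeft?) (PTF.of_finite _) PTF.snd

protected theorem PTF.unR : PTF unR := by
  refine PTF.filterMap (f := fun _ (s : Bool ⊕ Bool) => s.getRight?) PTF.id ?_
  exact PTF.comp (g := fun s : Bool ⊕ Bool => s.getRight?) (PTF.of_finite _) PTF.snd

protected theorem PTF.polyTimePred₂ {V : List Bool × List Bool → Bool} (h : PTF V) : PolyTimePred₂ V :=
  polyTimeComputable_of_ptf (g := fun l => [V (Crest.Agent.Lib.PT.unL l, Crest.Agent.Lib.PT.unR l)])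
    (PTF.listCons (PTF.comp h (PTF.prodMk PTF.unL PTF.unR)) (PTF.const _))
    (fun p => by rw [unL_pairEnc, unR_pairEnc]; rfl)

theorem polyTimePred₂_iff {V : List Bool × List Bool → Bool} : PolyTimePred₂ V ↔ PTF V :=
  ⟨PTF.of_polyTimePred₂, PTF.polyTimePred₂⟩

/-- maps of pairs to bit strings (this is `Crest.Randomized.RandPolyTime`) -/
protected theorem PTF.polyTimeComputable_pairEnc {A : List Bool × List Bool → List Bool} (h : PTF A) :
    PolyTimeComputable pairEnc (Computability.encodingList Bool).encode A :=
  polyTimeComputable_of_ptf (g := fun l => A (Crest.Agent.Lib.PT.unL l, Crest.Agent.Lib.PT.unR l))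
    (PTF.comp h (PTF.prodMk PTF.unL PTF.unR))
    (fun p => by rw [unL_pairEnc, unR_pairEnc]; rfl)


/-- raw version: a `PT` function on `pair x y` -/
protected theorem PT.polyTimePred₂ {V : List Bool × List Bool → Bool} {g : List Bool → List Bool}
    (hg : PT g) (h : ∀ x y, g (Crest.Agent.Lib.PT.pair x y) = [V (x, y)]) : PolyTimePred₂ V := by
  apply PTF.polyTimePred₂
  -- pass to raw pairs
  have h1 : PTF (fun p : List Bool × List Bool => (Bits.mk p.1, Bits.mk p.2)) :=
    PTF.prodMk (PTF.bitsMk PTF.fst) (PTF.bitsMk PTF.snd)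
  have h2 : PTF (fun p : Bits × Bits => V (p.1.val, p.2.val)) := ⟨g, hg, fun p => h _ _⟩
  exact PTF.comp (g := fun p : Bits × Bits => V (p.1.val, p.2.val)) h2 h1



/-! ### the class P -/







theorem polyTime_id : PolyTime (fun x => x) := PT.id.polyTime

protected theorem PolyTime.comp {f g : List Bool → List Bool} (hg : PolyTime g) (hf : PolyTime f) :
    PolyTime (fun x => g (f x)) :=
  ((PT.of_polyTime hg).comp (PT.of_polyTime hf)).polyTime

protected theorem PolyTimeReducible.refl (A : Set (List Bool)) : PolyTimeReducible A A :=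
  ⟨_, polyTime_id, fun _ => Iff.rfl⟩

protected theorem PolyTimeReducible.trans {A B C : Set (List Bool)} (h : PolyTimeReducible A B)
    (h' : PolyTimeReducible B C) : PolyTimeReducible A C := by
  obtain ⟨f, hf, h⟩ := h
  obtain ⟨g, hg, h'⟩ := h'
  exact ⟨_, PolyTime.comp hg hf, fun x => (h x).trans (h' _)⟩


/-! ### the class NP -/

theorem inNP_iff {L : Set (List Bool)} : InNP L ↔
    ∃ (V : List Bool → List Bool → Prop) (p : Polynomial ℕ),
      PTPred (fun q : List Bool × List Bool => V q.1 q.2) ∧
      ∀ x, x ∈ L ↔ ∃ w : List Bool, w.length ≤ p.eval x.length ∧ V x w := by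
  constructor
  · rintro ⟨V, p, hV, h⟩
    exact ⟨fun x w => V (x, w) = true, p, ⟨V, PTF.of_polyTimePred₂ hV, fun _ => Iff.rfl⟩, h⟩
  · rintro ⟨V, p, ⟨V', hV', hVV'⟩, h⟩
    refine ⟨V', p, hV'.polyTimePred₂, fun x => (h x).trans ?_⟩
    refine exists_congr fun w => and_congr_right fun _ => ?_
    exact hVV' (x, w)

/-- a polynomial bound in terms of the length of a bit string -/
protected theorem PB.exists_length {B : List Bool → ℕ} (hB : PB B) :
    ∃ p : Polynomial ℕ, ∀ x, B x ≤ p.eval x.length := by
  obtain ⟨p, hp⟩ := hB
  refine ⟨p.comp (3 * Polynomial.X), fun x => (hp x).trans (le_of_eq ?_)⟩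
  rw [Polynomial.eval_comp, sz_listBool]
  simp

protected theorem PB.length : PB (fun x : List Bool => x.length) :=
  PB.sz.mono (fun x => length_le_sz x)

/-- Introduction rule for NP with a certificate bound and a sound verifier. -/
protected theorem InNP.intro {L : Set (List Bool)} (V : List Bool → List Bool → Prop)
    (hV : PTPred (fun q : List Bool × List Bool => V q.1 q.2)) (B : List Bool → ℕ) (hB : PB B)
    (h1 : ∀ x ∈ L, ∃ w, w.length ≤ B x ∧ V x w) (h2 : ∀ x w, V x w → x ∈ L) : InNP L := by
  obtain ⟨p, hp⟩ := hB.exists_length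
  refine inNP_iff.2 ⟨V, p, hV, fun x => ⟨fun hx => ?_, fun ⟨w, _, hw⟩ => h2 x w hw⟩⟩
  obtain ⟨w, hw, hw'⟩ := h1 x hx
  exact ⟨w, hw.trans (hp x), hw'⟩





end Crest.Agent.Lib.PT
namespace Crest.Agent.Lib.PT.PTB
end Crest.Agent.Lib.PT.PTB
private theorem rz_f7ea5f8b0f : type_of% @_root_.Crest.Agent.Lib.PT.Front.lift.eq_def := @_root_.Crest.Agent.Lib.PT.Front.lift.eq_def -- L60
private theorem rz_084d460414 : type_of% @_root_.Crest.Agent.Lib.PT.Front.lift.eq_1 := @_root_.Crest.Agent.Lib.PT.Front.lift.eq_1 -- L60
private theorem rz_f215e6a73e : type_of% @_root_.Crest.Agent.Lib.PT.Front.pushes.eq_def := @_root_.Crest.Agent.Lib.PT.Front.pushes.eq_def -- L102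
private theorem rz_6b65baeb2e : type_of% @_root_.Crest.Agent.Lib.PT.Front.pushes.eq_1 := @_root_.Crest.Agent.Lib.PT.Front.pushes.eq_1 -- L102
private theorem rz_801eb0d9f2 : type_of% @_root_.Crest.Agent.Lib.PT.Front.stk'.eq_1 := @_root_.Crest.Agent.Lib.PT.Front.stk'.eq_1 -- L35
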