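import Mathlib

/-! Pure functional algorithms on natural numbers presented by their binary digits, phrased as
iterations and folds of very simple steps, together with correctness and size bounds.  They are
plugged into the polynomial-time library in `Arith.lean`. -/

set_option autoImplicit false

namespace Crest.Agent.Lib.PT.Arith

/-- value of a list of bits, most significant first -/
def msb (l : List Bool) : ℕ := l.foldl (fun n b => Nat.bit b n) 0

theorem foldl_bit (l : List Bool) (n : ℕ) :
    l.foldl (fun n b => Nat.bit b n) n = n * 2 ^ l.length + msb l := by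
  induction l generalizing n with
  | nil => simp [msb]
  | cons b l ih =>
    have h1 : (b :: l).foldl (fun n b => Nat.bit b n) n =
      l.foldl (fun n b => Nat.bit b n) (Nat.bit b n) := rfl
    have h2 : msb (b :: l) = l.foldl (fun n b => Nat.bit b n) (Nat.bit b 0) := rfl
    rw [h1, ih, h2, ih, List.length_cons, Nat.bit_val, Nat.bit_val]
    ring

@[simp] theorem msb_nil : msb [] = 0 := rfl

theorem msb_cons (b : Bool) (l : List Bool) : msb (b :: l) = b.toNat * 2 ^ l.length + msb l := by
  have h2 : msb (b :: l) = l.foldl (fun n b => Nat.bit b n) (Nat.bit b 0) := rfl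
  rw [h2, foldl_bit, Nat.bit_val]
  ring

theorem msb_append (l l' : List Bool) : msb (l ++ l') = msb l * 2 ^ l'.length + msb l' := by
  have h : msb (l ++ l') = l'.foldl (fun n b => Nat.bit b n) (msb l) := by
    rw [msb, List.foldl_append]; rfl
  rw [h, foldl_bit]

theorem msb_concat (l : List Bool) (b : Bool) : msb (l ++ [b]) = Nat.bit b (msb l) := by
  rw [msb, List.foldl_append]; rfl

theorem msb_lt (l : List Bool) : msb l < 2 ^ l.length := by
  induction l with
  | nil => simp
  | cons b l ih =>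
    rw [msb_cons, List.length_cons, pow_succ]
    have : b.toNat ≤ 1 := b.toNat_le
    nlinarith

theorem size_msb_le (l : List Bool) : (msb l).size ≤ l.length := Nat.size_le.2 (msb_lt l)

theorem msb_bits_reverse (n : ℕ) : msb n.bits.reverse = n := by
  induction n using Nat.binaryRec' with
  | zero => simp
  | bit b n h ih =>
    rw [Nat.bits_append_bit _ _ h, List.reverse_cons, msb_concat, ih]

theorem msb_take_le (l : List Bool) (k : ℕ) : msb (l.take k) ≤ msb l := by
  conv_rhs => rw [← List.take_append_drop k l]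
  rw [msb_append]
  have : 1 ≤ 2 ^ (l.drop k).length := Nat.one_le_two_pow
  nlinarith


/-! ### Addition -/

/-- majority of three bits -/
def maj (a b c : Bool) : Bool := (a && b) || (c && (a || b))

/-- sum bit of three bits -/
def xor3 (a b c : Bool) : Bool := xor (xor a b) c

theorem full_adder (a b c : Bool) :
    a.toNat + b.toNat + c.toNat = (xor3 a b c).toNat + 2 * (maj a b c).toNat := by
  cases a <;> cases b <;> cases c <;> rfl

/-- one step of the ripple-carry adder: state `((x, y), (carry, output))` -/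
def addStep (s : (ℕ × ℕ) × (Bool × List Bool)) : (ℕ × ℕ) × (Bool × List Bool) :=
  ((s.1.1.div2, s.1.2.div2),
    (maj s.1.1.bodd s.1.2.bodd s.2.1, xor3 s.1.1.bodd s.1.2.bodd s.2.1 :: s.2.2))

theorem bodd_toNat_add (n : ℕ) : n = n.bodd.toNat + 2 * n.div2 := (Nat.bodd_add_div2 n).symm


theorem addStep_iter (k x y : ℕ) (c : Bool) :
    let s := addStep^[k] ((x, y), (c, []))
    s.1.1 = x / 2 ^ k ∧ s.1.2 = y / 2 ^ k ∧ s.2.2.length = k ∧
      msb s.2.2 + 2 ^ k * (s.1.1 + s.1.2 + s.2.1.toNat) = x + y + c.toNat := by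
  induction k with
  | zero => simp
  | succ k ih =>
    intro s
    obtain ⟨h1, h2, h3, h4⟩ := ih
    set s' := addStep^[k] ((x, y), (c, [])) with hs'
    have hs : s = addStep s' := Function.iterate_succ_apply' _ _ _
    rw [hs]
    refine ⟨?_, ?_, ?_, ?_⟩
    · change s'.1.1.div2 = _
      rw [h1, Nat.div2_val, Nat.div_div_eq_div_mul, pow_succ]
    · change s'.1.2.div2 = _
      rw [h2, Nat.div2_val, Nat.div_div_eq_div_mul, pow_succ]
    · change (_ :: s'.2.2).length = _
      rw [List.length_cons, h3]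
    · change msb (xor3 s'.1.1.bodd s'.1.2.bodd s'.2.1 :: s'.2.2) +
        2 ^ (k + 1) * (s'.1.1.div2 + s'.1.2.div2 +
          (maj s'.1.1.bodd s'.1.2.bodd s'.2.1).toNat) = _
      rw [← h4, msb_cons, h3]
      have e1 := bodd_toNat_add s'.1.1
      have e2 := bodd_toNat_add s'.1.2
      have e3 := full_adder s'.1.1.bodd s'.1.2.bodd s'.2.1
      have e4 : s'.1.1 + s'.1.2 + s'.2.1.toNat =
        (xor3 s'.1.1.bodd s'.1.2.bodd s'.2.1).toNat + 2 * (s'.1.1.div2 + s'.1.2.div2 +
          (maj s'.1.1.bodd s'.1.2.bodd s'.2.1).toNat) := by omega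
      rw [e4]
      ring

theorem add_eq (x y : ℕ) :
    x + y = msb (addStep^[x.size + y.size + 1] ((x, y), (false, []))).2.2 := by
  obtain ⟨h1, h2, h3, h4⟩ := addStep_iter (x.size + y.size + 1) x y false
  set s := addStep^[x.size + y.size + 1] ((x, y), (false, [])) with hs
  set k := x.size + y.size + 1 with hk
  have hx : x < 2 ^ k := (Nat.lt_size_self x).trans_le (Nat.pow_le_pow_right (by norm_num) (by omega))
  have hy : y < 2 ^ k := (Nat.lt_size_self y).trans_le (Nat.pow_le_pow_right (by norm_num) (by omega))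
  have hx' : x < 2 ^ (k - 1) :=
    (Nat.lt_size_self x).trans_le (Nat.pow_le_pow_right (by norm_num) (by omega))
  have hy' : y < 2 ^ (k - 1) :=
    (Nat.lt_size_self y).trans_le (Nat.pow_le_pow_right (by norm_num) (by omega))
  have hk1 : 2 ^ k = 2 * 2 ^ (k - 1) := by
    rw [← pow_succ']; congr 1
  rw [Nat.div_eq_of_lt hx] at h1
  rw [Nat.div_eq_of_lt hy] at h2
  rw [h1, h2] at h4
  have hc : s.2.1 = false := by
    by_contra hne
    have : s.2.1 = true := by simpa using hne
    rw [this] at h4
    simp at h4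
    omega
  rw [hc] at h4
  simpa using h4.symm

/-! ### Subtraction and comparison -/

/-- borrow bit -/
def bor (a b c : Bool) : Bool := (!a && (b || c)) || (b && c)

theorem full_sub (a b c : Bool) :
    (a.toNat : ℤ) - b.toNat - c.toNat = (xor3 a b c).toNat - 2 * (bor a b c).toNat := by
  cases a <;> cases b <;> cases c <;> rfl

/-- one step of the ripple-borrow subtractor: state `((x, y), (borrow, output))` -/
def subStep (s : (ℕ × ℕ) × (Bool × List Bool)) : (ℕ × ℕ) × (Bool × List Bool) :=
  ((s.1.1.div2, s.1.2.div2),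
    (bor s.1.1.bodd s.1.2.bodd s.2.1, xor3 s.1.1.bodd s.1.2.bodd s.2.1 :: s.2.2))

theorem subStep_iter (k x y : ℕ) (c : Bool) :
    let s := subStep^[k] ((x, y), (c, []))
    s.1.1 = x / 2 ^ k ∧ s.1.2 = y / 2 ^ k ∧ s.2.2.length = k ∧
      (msb s.2.2 : ℤ) + 2 ^ k * (s.1.1 - s.1.2 - s.2.1.toNat) = x - y - c.toNat := by
  induction k with
  | zero => simp
  | succ k ih =>
    intro s
    obtain ⟨h1, h2, h3, h4⟩ := ih
    set s' := subStep^[k] ((x, y), (c, [])) with hs'
    have hs : s = subStep s' := Function.iterate_succ_apply' _ _ _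
    rw [hs]
    refine ⟨?_, ?_, ?_, ?_⟩
    · change s'.1.1.div2 = _
      rw [h1, Nat.div2_val, Nat.div_div_eq_div_mul, pow_succ]
    · change s'.1.2.div2 = _
      rw [h2, Nat.div2_val, Nat.div_div_eq_div_mul, pow_succ]
    · change (_ :: s'.2.2).length = _
      rw [List.length_cons, h3]
    · change (msb (xor3 s'.1.1.bodd s'.1.2.bodd s'.2.1 :: s'.2.2) : ℤ) +
        2 ^ (k + 1) * (s'.1.1.div2 - s'.1.2.div2 -
          (bor s'.1.1.bodd s'.1.2.bodd s'.2.1).toNat) = _
      rw [← h4, msb_cons, h3]
      have e1 : (s'.1.1 : ℤ) = s'.1.1.bodd.toNat + 2 * s'.1.1.div2 := by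
        exact_mod_cast bodd_toNat_add s'.1.1
      have e2 : (s'.1.2 : ℤ) = s'.1.2.bodd.toNat + 2 * s'.1.2.div2 := by
        exact_mod_cast bodd_toNat_add s'.1.2
      have e3 := full_sub s'.1.1.bodd s'.1.2.bodd s'.2.1
      have e4 : (s'.1.1 : ℤ) - s'.1.2 - s'.2.1.toNat =
        (xor3 s'.1.1.bodd s'.1.2.bodd s'.2.1).toNat + 2 * (s'.1.1.div2 - s'.1.2.div2 -
          (bor s'.1.1.bodd s'.1.2.bodd s'.2.1).toNat) := by linarith
      rw [e4]
      push_cast
      ring

theorem subStep_final (x y : ℕ) :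
    let s := subStep^[x.size + y.size] ((x, y), (false, []))
    (s.2.1 = true ↔ x < y) ∧ (y ≤ x → msb s.2.2 = x - y) := by
  obtain ⟨h1, h2, h3, h4⟩ := subStep_iter (x.size + y.size) x y false
  set s := subStep^[x.size + y.size] ((x, y), (false, [])) with hs
  set k := x.size + y.size with hk
  have hx : x < 2 ^ k := (Nat.lt_size_self x).trans_le (Nat.pow_le_pow_right (by norm_num) (by omega))
  have hy : y < 2 ^ k := (Nat.lt_size_self y).trans_le (Nat.pow_le_pow_right (by norm_num) (by omega))
  rw [Nat.div_eq_of_lt hx] at h1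
  rw [Nat.div_eq_of_lt hy] at h2
  rw [h1, h2] at h4
  have hm := msb_lt s.2.2
  rw [h3] at hm
  simp only [Nat.cast_zero, sub_zero, zero_sub, Bool.toNat_false] at h4
  have hm' : (msb s.2.2 : ℤ) < 2 ^ k := by exact_mod_cast hm
  intro s0
  change (s.2.1 = true ↔ x < y) ∧ (y ≤ x → msb s.2.2 = x - y)
  cases hc : s.2.1
  · rw [hc] at h4
    simp at h4
    constructor
    · constructor
      · intro h; exact absurd h (by simp)
      · intro h; omega
    · intro h; omega
  · rw [hc] at h4
    simp at h4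
    constructor
    · constructor
      · intro _; omega
      · intro _; trivial
    · intro h; omega

theorem sub_eq (x y : ℕ) : x - y =
    if (subStep^[x.size + y.size] ((x, y), (false, []))).2.1 = true then 0
    else msb (subStep^[x.size + y.size] ((x, y), (false, []))).2.2 := by
  obtain ⟨h1, h2⟩ := subStep_final x y
  split_ifs with h
  · have := h1.1 h; omega
  · have : ¬ x < y := fun h' => h (h1.2 h')
    rw [h2 (by omega)]

theorem lt_iff (x y : ℕ) :
    x < y ↔ (subStep^[x.size + y.size] ((x, y), (false, []))).2.1 = true :=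
  (subStep_final x y).1.symm

/-! ### Multiplication -/

theorem mul_foldl (y : ℕ) (l : List Bool) (r : ℕ) :
    l.foldl (fun r b => Nat.bit false r + (if b then y else 0)) r =
      r * 2 ^ l.length + msb l * y := by
  induction l generalizing r with
  | nil => simp
  | cons b l ih =>
    rw [List.foldl_cons, ih, msb_cons, List.length_cons, Nat.bit_val]
    cases b <;> simp <;> ring

theorem mul_eq (x y : ℕ) :
    x.bits.reverse.foldl (fun r b => Nat.bit false r + (if b then y else 0)) 0 = x * y := by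
  rw [mul_foldl, msb_bits_reverse]; simp

/-! ### Division -/

/-- one step of long division by `y`: state `(quotient, remainder)` -/
def divStep (y : ℕ) (s : ℕ × ℕ) (b : Bool) : ℕ × ℕ :=
  if y ≤ Nat.bit b s.2 then (Nat.bit true s.1, Nat.bit b s.2 - y)
  else (Nat.bit false s.1, Nat.bit b s.2)

theorem divStep_foldl (y : ℕ) (hy : 0 < y) (l : List Bool) :
    l.foldl (divStep y) (0, 0) = (msb l / y, msb l % y) := by
  induction l using List.reverseRecOn with
  | nil => simp
  | append_singleton l b ih =>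
    rw [List.foldl_append, ih, List.foldl_cons, List.foldl_nil, msb_concat]
    have h1 : msb l = msb l / y * y + msb l % y := by rw [mul_comm]; exact (Nat.div_add_mod _ _).symm
    have h2 : msb l % y < y := Nat.mod_lt _ hy
    set q := msb l / y
    set r := msb l % y
    have hb : Nat.bit b (msb l) = 2 * q * y + Nat.bit b r := by
      rw [h1, Nat.bit_val, Nat.bit_val]; ring
    have hr : Nat.bit b r < 2 * y := by
      rw [Nat.bit_val]
      have := b.toNat_le
      omega
    rw [hb, divStep]
    simp only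
    split_ifs with h
    · have e : 2 * q * y + Nat.bit b r = (Nat.bit b r - y) + y * (2 * q + 1) := by
        rw [mul_add, mul_one, ← add_assoc, mul_comm y (2 * q)]; omega
      have hlt : Nat.bit b r - y < y := by omega
      rw [e, Nat.add_mul_div_left _ _ hy, Nat.add_mul_mod_self_left, Nat.div_eq_of_lt hlt,
        Nat.mod_eq_of_lt hlt, Nat.bit_val]
      simp
    · have hlt : Nat.bit b r < y := by omega
      have e : 2 * q * y + Nat.bit b r = Nat.bit b r + y * (2 * q) := by ring
      rw [e, Nat.add_mul_div_left _ _ hy, Nat.add_mul_mod_self_left, Nat.div_eq_of_lt hlt,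
        Nat.mod_eq_of_lt hlt]
      rw [Nat.bit_val]
      simp

theorem div_mod_eq (x y : ℕ) (hy : 0 < y) :
    x.bits.reverse.foldl (divStep y) (0, 0) = (x / y, x % y) := by
  rw [divStep_foldl y hy, msb_bits_reverse]

/-! ### gcd -/

/-- Euclid step -/
def gcdStep (s : ℕ × ℕ) : ℕ × ℕ := if s.2 = 0 then s else (s.2, s.1 % s.2)

theorem gcdStep_gcd (s : ℕ × ℕ) : Nat.gcd (gcdStep s).1 (gcdStep s).2 = Nat.gcd s.1 s.2 := by
  rw [gcdStep]
  split_ifs with h
  · rfl
  · simp only
    rw [Nat.gcd_comm s.1 s.2, Nat.gcd_rec s.2 s.1, Nat.gcd_comm]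

theorem gcdStep_iter_gcd (k : ℕ) (s : ℕ × ℕ) :
    Nat.gcd (gcdStep^[k] s).1 (gcdStep^[k] s).2 = Nat.gcd s.1 s.2 := by
  induction k with
  | zero => rfl
  | succ k ih => rw [Function.iterate_succ_apply', gcdStep_gcd, ih]


theorem gcdStep_two (s : ℕ × ℕ) : 2 * (gcdStep (gcdStep s)).2 ≤ s.2 := by
  by_cases h : s.2 = 0
  · rw [show gcdStep s = s by rw [gcdStep, if_pos h]]
    rw [show gcdStep s = s by rw [gcdStep, if_pos h], h]
  · have h1 : gcdStep s = (s.2, s.1 % s.2) := by rw [gcdStep, if_neg h]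
    rw [h1, gcdStep]
    simp only
    split_ifs with h2
    · simp [h2]
    · simp only
      have h3 : s.1 % s.2 < s.2 := Nat.mod_lt _ (Nat.pos_of_ne_zero h)
      have h4 : 0 < s.1 % s.2 := Nat.pos_of_ne_zero h2
      have h5 : s.2 % (s.1 % s.2) < s.1 % s.2 := Nat.mod_lt _ h4
      have h6 := Nat.div_add_mod s.2 (s.1 % s.2)
      have h7 : 1 ≤ s.2 / (s.1 % s.2) := Nat.div_pos h3.le h4
      nlinarith

theorem gcdStep_iter_snd (k : ℕ) (s : ℕ × ℕ) : 2 ^ k * (gcdStep^[2 * k] s).2 ≤ s.2 := by
  induction k with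
  | zero => simp
  | succ k ih =>
    have h : gcdStep^[2 * (k + 1)] s = gcdStep (gcdStep (gcdStep^[2 * k] s)) := by
      rw [show 2 * (k + 1) = (2 * k + 1) + 1 by ring, Function.iterate_succ_apply',
        Function.iterate_succ_apply']
    rw [h, pow_succ]
    have := gcdStep_two (gcdStep^[2 * k] s)
    calc 2 ^ k * 2 * _ = 2 ^ k * (2 * (gcdStep (gcdStep (gcdStep^[2 * k] s))).2) := by ring
      _ ≤ 2 ^ k * (gcdStep^[2 * k] s).2 := Nat.mul_le_mul_left _ this
      _ ≤ _ := ih

theorem gcd_eq (x y : ℕ) : (gcdStep^[2 * y.size] (x, y)).1 = Nat.gcd x y := by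
  have h1 := gcdStep_iter_snd y.size (x, y)
  have h2 : (gcdStep^[2 * y.size] (x, y)).2 = 0 := by
    by_contra h
    have h3 : 1 ≤ (gcdStep^[2 * y.size] (x, y)).2 := Nat.pos_of_ne_zero h
    have h4 := Nat.lt_size_self y
    simp only at h1
    nlinarith
  have h3 := gcdStep_iter_gcd (2 * y.size) (x, y)
  rw [h2, Nat.gcd_zero_right] at h3
  exact h3

theorem gcdStep_max_le (s : ℕ × ℕ) :
    (gcdStep s).1 ≤ max s.1 s.2 ∧ (gcdStep s).2 ≤ max s.1 s.2 := by
  rw [gcdStep]
  split_ifs with h
  · exact ⟨le_max_left _ _, le_max_right _ _⟩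
  · exact ⟨le_max_right _ _, (Nat.mod_le _ _).trans (le_max_left _ _)⟩

theorem gcdStep_iter_max_le (k : ℕ) (s : ℕ × ℕ) :
    (gcdStep^[k] s).1 ≤ max s.1 s.2 ∧ (gcdStep^[k] s).2 ≤ max s.1 s.2 := by
  induction k with
  | zero => exact ⟨le_max_left _ _, le_max_right _ _⟩
  | succ k ih =>
    rw [Function.iterate_succ_apply']
    have := gcdStep_max_le (gcdStep^[k] s)
    exact ⟨this.1.trans (max_le ih.1 ih.2), this.2.trans (max_le ih.1 ih.2)⟩

/-! ### Modular exponentiation -/





end Crest.Agent.Lib.PT.Arith
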