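import Crest.Agent.Lib.PT.Arith

/-!
# More poly-time arithmetic: binary search, roots, sums and products, modular inverse, bitwise
-/

set_option linter.dupNamespace false
set_option autoImplicit false

namespace Crest.Agent.Lib.PT

namespace Arith

variable {α β γ : Type} [PTCode α] [PTCode β] [PTCode γ]

/-! ### binary search -/

/-- one step of binary search: state `(weight, current)` -/
def bsStep (P : ℕ → Bool) (s : ℕ × ℕ) : ℕ × ℕ :=
  (s.1.div2, bif P (s.2 + s.1.div2) then s.2 + s.1.div2 else s.2)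

theorem bsStep_iter (F K : ℕ) (P : ℕ → Bool) (hP : ∀ m, m < 2 ^ K → (P m = true ↔ m ≤ F))
    (hF : F < 2 ^ K) (i : ℕ) (hi : i ≤ K) :
    (bsStep P)^[i] (2 ^ K, 0) = (2 ^ (K - i), F / 2 ^ (K - i) * 2 ^ (K - i)) := by
  induction i with
  | zero => simp [Nat.div_eq_of_lt hF]
  | succ i ih =>
    rw [Function.iterate_succ_apply', ih (by omega), bsStep]
    obtain ⟨j, hj⟩ : ∃ j, K - i = j + 1 := ⟨K - i - 1, by omega⟩
    have hj' : K - (i + 1) = j := by omega
    rw [hj, hj']
    have h2 : (2 ^ (j + 1) : ℕ).div2 = 2 ^ j := by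
      rw [Nat.div2_val, pow_succ]; simp
    simp only [h2]
    have hw : 0 < 2 ^ j := by positivity
    set w := 2 ^ j with hw'
    have hq : F / 2 ^ (j + 1) = F / w / 2 := by
      rw [Nat.div_div_eq_div_mul, pow_succ]
    rw [hq]
    set q := F / w / 2 with hq'
    have hc : q * 2 ^ (j + 1) + w = (2 * q + 1) * w := by rw [pow_succ]; ring
    rw [hc]
    have h3 : q = F / w / 2 := rfl
    have h5 : F / w < 2 ^ (i + 1) := by
      rw [Nat.div_lt_iff_lt_mul hw, hw', ← pow_add]
      rwa [show i + 1 + j = K by omega]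
    have h6 : (2 * q + 1) * w < 2 ^ K := by
      have h7 : 2 * q + 1 < 2 ^ (i + 1) := by
        have : q < 2 ^ i := by rw [pow_succ] at h5; omega
        rw [pow_succ]; omega
      calc (2 * q + 1) * w < 2 ^ (i + 1) * w := Nat.mul_lt_mul_of_pos_right h7 hw
        _ = 2 ^ K := by rw [hw', ← pow_add]; congr 1; omega
    have h8 := hP _ h6
    rcases Nat.lt_or_ge F ((2 * q + 1) * w) with h | h
    · have : P ((2 * q + 1) * w) = false := by
        by_contra hne
        have := h8.1 (by simpa using hne)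
        omega
      rw [this, cond_false]
      have h9 : F / w < 2 * q + 1 := (Nat.div_lt_iff_lt_mul hw).2 h
      have h10 : F / w = 2 * q := by omega
      rw [h10, pow_succ]
      simp only [Prod.mk.injEq, true_and]
      ring
    · have : P ((2 * q + 1) * w) = true := h8.2 h
      rw [this, cond_true]
      have h9 : 2 * q + 1 ≤ F / w := (Nat.le_div_iff_mul_le hw).2 h
      have h10 : F / w = 2 * q + 1 := by omega
      rw [h10]

/-- Binary search: if `m ≤ F c` is poly-time decidable (`m` in binary) and `F c` has polynomially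
many bits then `F` is poly-time. -/
theorem ptf_of_le {F K : α → ℕ} (h : PTPred (fun p : α × ℕ => p.2 ≤ F p.1)) (hK : PTU K)
    (hF : ∀ a, F a < 2 ^ K a) : PTF F := by
  classical
  obtain ⟨P, hPTF, hP⟩ := h
  have hstep : PTF₂ (fun (a : α) (s : ℕ × ℕ) => bsStep (fun m => P (a, m)) s) := by
    have h1 : PTF (fun p : α × ℕ × ℕ => p.2.1.div2) :=
      PTF.comp (g := fun n : ℕ => n.div2) ptf_div2 (by fun_prop)
    have h2 : PTF (fun p : α × ℕ × ℕ => p.2.2 + p.2.1.div2) := PTF.natAdd (by fun_prop) h1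
    refine PTF.prodMk h1 (PTF.cond (PTF.comp hPTF (PTF.prodMk PTF.fst h2)) h2 (by fun_prop))
  have hinit : PTF (fun a : α => ((2 ^ K a, 0) : ℕ × ℕ)) :=
    PTF.prodMk (PTF.natTwoPow hK) (PTF.const 0)
  have key : ∀ (a : α) (i : ℕ), i ≤ K a → (bsStep (fun m => P (a, m)))^[i] (2 ^ K a, 0) =
      (2 ^ (K a - i), F a / 2 ^ (K a - i) * 2 ^ (K a - i)) := fun a i hi =>
    bsStep_iter (F a) (K a) _ (fun m _ => (hP (a, m)).symm) (hF a) i hi
  have h := PTF.iterate' (n := K) (f := fun a s => bsStep (fun m => P (a, m)) s)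
    (a := fun a => (2 ^ K a, 0)) hK hstep hinit (B := fun a => 3 * (K a + 1) + 1)
    (by have := hK.pb; fun_prop) (fun a i hi => by
      rw [key a i hi, sz_prod, sz_nat, sz_nat]
      have h1 : (2 ^ (K a - i)).size ≤ K a + 1 := by
        rw [Nat.size_pow]; omega
      have h2 : (F a / 2 ^ (K a - i) * 2 ^ (K a - i)).size ≤ K a := by
        rw [Nat.size_le]
        exact (Nat.div_mul_le_self _ _).trans_lt (hF a)
      simp only
      omega)
  refine PTF.of_eq (PTF.comp PTF.snd h) (fun a => ?_)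
  rw [key a _ le_rfl]
  simp

theorem ptf_sqrt : PTF (fun n : ℕ => Nat.sqrt n) := by
  refine ptf_of_le (K := fun n => n.size) ((PTPred.natLe (α := ℕ × ℕ)
    (f := fun p => p.2 * p.2) (g := fun p => p.1) (by fun_prop) (by fun_prop)).of_iff
    (fun p => Nat.le_sqrt.symm)) (PTF.natSizeUn PTF.id) (fun n => ?_)
  exact (Nat.sqrt_le_self n).trans_lt (Nat.lt_size_self n)

theorem ptf_log : PTF (fun p : ℕ × ℕ => Nat.log p.1 p.2) := by
  have hk : PTU (fun p : (ℕ × ℕ) × ℕ => min p.2 (p.1.2.size + 1)) :=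
    PTF.natMinUn PTF.snd (PTU.succ (PTF.natSizeUn (by fun_prop)))
  have hpow : PTF (fun p : (ℕ × ℕ) × ℕ => p.1.1 ^ (min p.2 (p.1.2.size + 1))) :=
    PTF.natPow (by fun_prop) hk
  have hp : PTPred (fun p : (ℕ × ℕ) × ℕ => p.2 ≤ Nat.log p.1.1 p.1.2) := by
    have h1 : PTPred (fun p : (ℕ × ℕ) × ℕ => p.2 = 0) := PTPred.natEq (by fun_prop) (by fun_prop)
    have h2 : PTPred (fun p : (ℕ × ℕ) × ℕ => 1 < p.1.1) := PTPred.natLt (by fun_prop) (by fun_prop)
    have h3 : PTPred (fun p : (ℕ × ℕ) × ℕ => p.1.1 ^ (min p.2 (p.1.2.size + 1)) ≤ p.1.2) :=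
      PTPred.natLe hpow (by fun_prop)
    refine (h1.or (h2.and h3)).of_iff ?_
    rintro ⟨⟨b, n⟩, m⟩
    simp only
    rcases Nat.eq_zero_or_pos m with rfl | hm
    · simp
    rcases Nat.lt_or_ge 1 b with hb | hb
    · rcases Nat.eq_zero_or_pos n with rfl | hn
      · simp only [Nat.log_zero_right, Nat.le_zero]
        constructor
        · rintro (h | ⟨-, h⟩)
          · exact h
          · have : 0 < b ^ (min m (Nat.size 0 + 1)) := Nat.pow_pos (by omega)
            omega
        · intro h; exact Or.inl h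
      · rw [Nat.le_log_iff_pow_le hb hn.ne']
        have hlt : n < b ^ (n.size + 1) :=
          (Nat.lt_size_self n).trans_le ((Nat.pow_le_pow_left hb _).trans
            (Nat.pow_le_pow_right (by omega) (by omega)))
        constructor
        · rintro (h | ⟨-, h⟩)
          · omega
          · rcases le_total m (n.size + 1) with h' | h'
            · rwa [min_eq_left h'] at h
            · rw [min_eq_right h'] at h; omega
        · intro h
          refine Or.inr ⟨hb, ?_⟩
          rcases le_total m (n.size + 1) with h' | h'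
          · rwa [min_eq_left h']
          · have := Nat.pow_le_pow_right (show 0 < b by omega) h'
            omega
    · rw [Nat.log_of_left_le_one hb]
      simp only [Nat.le_zero, or_iff_left_iff_imp]
      omega
  refine ptf_of_le (K := fun p => p.2.size) hp (PTF.natSizeUn PTF.snd) (fun p => ?_)
  exact (Nat.log_le_self _ _).trans_lt (Nat.lt_size_self _)

end Arith

section api

variable {α β γ : Type} [PTCode α] [PTCode β] [PTCode γ] {f g h : α → ℕ}


@[fun_prop]
protected theorem PTF.natSqrt (hf : PTF f) : PTF (fun a => Nat.sqrt (f a)) :=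
  PTF.comp (g := fun n : ℕ => Nat.sqrt n) Arith.ptf_sqrt hf

@[fun_prop]
protected theorem PTF.natLog (hf : PTF f) (hg : PTF g) : PTF (fun a => Nat.log (f a) (g a)) :=
  PTF.comp Arith.ptf_log (PTF.prodMk hf hg)


end api

namespace Arith

variable {α β γ : Type} [PTCode α] [PTCode β] [PTCode γ]

/-! ### sums and products -/


theorem size_sum_le (l : List ℕ) : l.sum.size ≤ sz l := by
  induction l with
  | nil => simp
  | cons a l ih =>
    rw [List.sum_cons, sz_cons, sz_nat]
    have := size_add_le a l.sum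
    omega

theorem size_prod_le (l : List ℕ) : l.prod.size ≤ sz l + 1 := by
  induction l with
  | nil => simp
  | cons a l ih =>
    rw [List.prod_cons, sz_cons, sz_nat]
    have := size_mul_le a l.prod
    omega

theorem ptf_listSum : PTF (fun l : List ℕ => l.sum) := by
  have h := PTF.foldl (γ := List ℕ) (l := fun l => l) (f := fun _ s a => s + a) (b := fun _ => 0)
    PTF.id (PTF.natAdd (by fun_prop) (by fun_prop)) (PTF.const _) (B := fun l => sz l) PTF.id.sz
    (fun l i _ => by
      rw [← List.sum_eq_foldl, sz_nat]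
      exact (size_sum_le _).trans (sz_take_le l i))
  exact PTF.of_eq h (fun l => (List.sum_eq_foldl).symm)

theorem ptf_listProd : PTF (fun l : List ℕ => l.prod) := by
  have h := PTF.foldl (γ := List ℕ) (l := fun l => l) (f := fun _ s a => s * a) (b := fun _ => 1)
    PTF.id (PTF.natMul (by fun_prop) (by fun_prop)) (PTF.const _) (B := fun l => sz l + 1)
    (by have := (PTF.id (α := List ℕ)).sz; fun_prop)
    (fun l i _ => by
      rw [← List.prod_eq_foldl, sz_nat]
      have := size_prod_le (l.take i)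
      have := sz_take_le l i
      omega)
  exact PTF.of_eq h (fun l => (List.prod_eq_foldl).symm)

/-- uniform size bound for values at a bounded unary index -/
theorem pb_index {n : α → ℕ} {f : α → ℕ → β} (hn : PTU n) (hf : PTF (fun p : α × ℕ => f p.1 p.2)) :
    ∃ B : α → ℕ, PB B ∧ ∀ a, ∀ i ≤ n a, sz (f a i) ≤ B a := by
  obtain ⟨p, hp⟩ := hf.bound
  refine ⟨fun a => p.eval (2 * sz a + 1 + n a), PB.eval p (by have := hn.pb; fun_prop),
    fun a i hi => (hp (a, i)).trans (eval_mono p ?_)⟩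
  rw [sz_prod, sz_nat]
  have h1 : i < 2 ^ i := Nat.lt_two_pow_self
  have h2 := Nat.size_le.2 h1
  simp only
  omega

theorem size_sum_range_le {f : ℕ → ℕ} {B : ℕ} (n : ℕ) (h : ∀ i < n, (f i).size ≤ B) :
    (∑ i ∈ Finset.range n, f i).size ≤ n * (B + 1) := by
  induction n with
  | zero => simp
  | succ n ih =>
    rw [Finset.sum_range_succ]
    have h1 := ih (fun i hi => h i (by omega))
    have h2 := h n (by omega)
    have h3 := size_add_le (∑ i ∈ Finset.range n, f i) (f n)
    have h4 : (n + 1) * (B + 1) = n * (B + 1) + B + 1 := by ring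
    omega

theorem size_prod_range_le {f : ℕ → ℕ} {B : ℕ} (n : ℕ) (h : ∀ i < n, (f i).size ≤ B) :
    (∏ i ∈ Finset.range n, f i).size ≤ n * B + 1 := by
  induction n with
  | zero => simp
  | succ n ih =>
    rw [Finset.prod_range_succ]
    have h1 := ih (fun i hi => h i (by omega))
    have h2 := h n (by omega)
    have h3 := size_mul_le (∏ i ∈ Finset.range n, f i) (f n)
    have h4 : (n + 1) * B = n * B + B := by ring
    omega

/-- Recursion along a unary counter: `r (i+1) = step i (r i)`. -/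
theorem ptf_natRec {n : α → ℕ} {b : α → β} {s : α → ℕ → β → β} {r : α → ℕ → β} (hn : PTU n)
    (hb : PTF b) (hs : PTF (fun p : α × ℕ × β => s p.1 p.2.1 p.2.2))
    (h0 : ∀ a, r a 0 = b a) (h1 : ∀ a i, i < n a → r a (i + 1) = s a i (r a i))
    {B : α → ℕ} (hB : PB B) (hbd : ∀ a, ∀ i ≤ n a, sz (r a i) ≤ B a) :
    PTF (fun a => r a (n a)) := by
  have key : ∀ a, ∀ i ≤ n a, (fun t : ℕ × β => (t.1 + 1, s a t.1 t.2))^[i] (0, b a) = (i, r a i) := by
    intro a i
    induction i with
    | zero => intro _; simp [h0]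
    | succ i ih =>
      intro hi
      rw [Function.iterate_succ_apply', ih (by omega), h1 a i (by omega)]
  have hstep : PTF₂ (fun (a : α) (t : ℕ × β) => (t.1 + 1, s a t.1 t.2)) := by
    refine PTF.prodMk (PTF.natAdd (by fun_prop) (PTF.const 1)) ?_
    exact PTF.comp (g := fun p : α × ℕ × β => s p.1 p.2.1 p.2.2) hs (by fun_prop)
  have h := PTF.iterate' (n := n) (f := fun a (t : ℕ × β) => (t.1 + 1, s a t.1 t.2))
    (a := fun a => (0, b a)) hn hstep (by fun_prop) (B := fun a => 2 * n a + 1 + B a)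
    (by have := hn.pb; fun_prop) (fun a i hi => by
      rw [key a i hi, sz_prod, sz_nat]
      have h1 : i < 2 ^ i := Nat.lt_two_pow_self
      have h2 := Nat.size_le.2 h1
      have h3 := hbd a i hi
      simp only
      omega)
  exact PTF.of_eq (PTF.comp PTF.snd h) (fun a => by rw [key a _ le_rfl])

theorem ptf_sumRange {n : α → ℕ} {f : α → ℕ → ℕ} (hn : PTU n)
    (hf : PTF (fun p : α × ℕ => f p.1 p.2)) : PTF (fun a => ∑ i ∈ Finset.range (n a), f a i) := by
  obtain ⟨B, hB, hBd⟩ := pb_index hn hf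
  refine ptf_natRec (r := fun a i => ∑ j ∈ Finset.range i, f a j) (s := fun a i t => t + f a i)
    hn (PTF.const 0) ?_ (fun a => by simp) (fun a i _ => Finset.sum_range_succ _ _)
    (B := fun a => n a * (B a + 1)) (by have := hn.pb; fun_prop) (fun a i hi => ?_)
  · exact PTF.natAdd (by fun_prop) (PTF.comp (g := fun p : α × ℕ => f p.1 p.2)
      (f := fun p : α × ℕ × ℕ => (p.1, p.2.1)) hf (by fun_prop))
  · rw [sz_nat]
    refine (size_sum_range_le i (B := B a) (fun j hj => ?_)).trans (Nat.mul_le_mul_right _ hi)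
    have := hBd a j (by omega)
    rwa [sz_nat] at this

theorem ptf_prodRange {n : α → ℕ} {f : α → ℕ → ℕ} (hn : PTU n)
    (hf : PTF (fun p : α × ℕ => f p.1 p.2)) : PTF (fun a => ∏ i ∈ Finset.range (n a), f a i) := by
  obtain ⟨B, hB, hBd⟩ := pb_index hn hf
  refine ptf_natRec (r := fun a i => ∏ j ∈ Finset.range i, f a j) (s := fun a i t => t * f a i)
    hn (PTF.const 1) ?_ (fun a => by simp) (fun a i _ => Finset.prod_range_succ _ _)
    (B := fun a => n a * B a + 1) (by have := hn.pb; fun_prop) (fun a i hi => ?_)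
  · exact PTF.natMul (by fun_prop) (PTF.comp (g := fun p : α × ℕ => f p.1 p.2)
      (f := fun p : α × ℕ × ℕ => (p.1, p.2.1)) hf (by fun_prop))
  · rw [sz_nat]
    refine (size_prod_range_le i (B := B a) (fun j hj => ?_)).trans
      (Nat.add_le_add_right (Nat.mul_le_mul_right _ hi) _)
    have := hBd a j (by omega)
    rwa [sz_nat] at this

/-! ### bitwise operations -/

/-- step of a bitwise operation -/
def bwStep (g : Bool → Bool → Bool) (s : (ℕ × ℕ) × List Bool) : (ℕ × ℕ) × List Bool :=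
  ((s.1.1.div2, s.1.2.div2), g s.1.1.bodd s.1.2.bodd :: s.2)

theorem bwStep_iter (g : Bool → Bool → Bool) (hg : g false false = false) (k x y : ℕ) :
    let s := (bwStep g)^[k] ((x, y), [])
    s.1.1 = x / 2 ^ k ∧ s.1.2 = y / 2 ^ k ∧ s.2.length = k ∧
      msb s.2 + 2 ^ k * Nat.bitwise g s.1.1 s.1.2 = Nat.bitwise g x y := by
  induction k with
  | zero => simp
  | succ k ih =>
    intro s
    obtain ⟨h1, h2, h3, h4⟩ := ih
    set s' := (bwStep g)^[k] ((x, y), []) with hs'
    have hs : s = bwStep g s' := Function.iterate_succ_apply' _ _ _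
    rw [hs]
    refine ⟨?_, ?_, ?_, ?_⟩
    · change s'.1.1.div2 = _
      rw [h1, Nat.div2_val, Nat.div_div_eq_div_mul, pow_succ]
    · change s'.1.2.div2 = _
      rw [h2, Nat.div2_val, Nat.div_div_eq_div_mul, pow_succ]
    · change (_ :: s'.2).length = _
      rw [List.length_cons, h3]
    · change msb (g s'.1.1.bodd s'.1.2.bodd :: s'.2) +
        2 ^ (k + 1) * Nat.bitwise g s'.1.1.div2 s'.1.2.div2 = _
      rw [← h4, msb_cons, h3]
      have e : Nat.bitwise g s'.1.1 s'.1.2 =
          Nat.bit (g s'.1.1.bodd s'.1.2.bodd) (Nat.bitwise g s'.1.1.div2 s'.1.2.div2) := by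
        conv_lhs => rw [← Nat.bit_bodd_div2 s'.1.1, ← Nat.bit_bodd_div2 s'.1.2]
        rw [Nat.bitwise_bit hg]
      rw [e, Nat.bit_val]
      ring

theorem ptf_bitwise (g : Bool → Bool → Bool) (hg : g false false = false) :
    PTF (fun p : ℕ × ℕ => Nat.bitwise g p.1 p.2) := by
  have h1 : PTF (fun s : (ℕ × ℕ) × List Bool => s.1.1) := by fun_prop
  have h2 : PTF (fun s : (ℕ × ℕ) × List Bool => s.1.2) := by fun_prop
  have h4 : PTF (fun s : (ℕ × ℕ) × List Bool => s.2) := by fun_prop
  have b1 := PTF.comp ptf_bodd h1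
  have b2 := PTF.comp ptf_bodd h2
  have hg' : PTF (fun s : (ℕ × ℕ) × List Bool => g s.1.1.bodd s.1.2.bodd) :=
    PTF.comp (g := fun p : Bool × Bool => g p.1 p.2) (PTF.of_finite _) (PTF.prodMk b1 b2)
  have hstep : PTF (bwStep g) :=
    PTF.prodMk (PTF.prodMk (PTF.comp ptf_div2 h1) (PTF.comp ptf_div2 h2)) (PTF.listCons hg' h4)
  have h := PTF.iterate' (f := fun _ s => bwStep g s) (n := fun p : ℕ × ℕ => p.1.size + p.2.size)
    (a := fun p => ((p.1, p.2), [])) (PTU.add (ptu_size PTF.fst) (ptu_size PTF.snd))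
    (PTF.comp hstep PTF.snd) (by fun_prop)
    (B := fun p => 2 * (2 * sz p + 1 + sz p) + 1 + 3 * (2 * sz p)) (by fun_prop)
    (fun p i hi => by
      obtain ⟨h1, h2, h3, -⟩ := bwStep_iter g hg i p.1 p.2
      change sz ((bwStep g)^[i] ((p.1, p.2), [])) ≤ _
      set s := (bwStep g)^[i] ((p.1, p.2), [])
      simp only [sz_prod, sz_boolList, sz_nat]
      rw [h1, h2, h3]
      have e1 := size_div_le p.1 i
      have e2 := size_div_le p.2 i
      omega)
  refine PTF.of_eq (PTF.comp ptf_msb (PTF.comp PTF.snd h)) (fun p => ?_)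
  obtain ⟨h1, h2, h3, h4⟩ := bwStep_iter g hg (p.1.size + p.2.size) p.1 p.2
  have e1 : p.1 / 2 ^ (p.1.size + p.2.size) = 0 := Nat.div_eq_of_lt
    ((Nat.lt_size_self _).trans_le (Nat.pow_le_pow_right (by norm_num) (by omega)))
  have e2 : p.2 / 2 ^ (p.1.size + p.2.size) = 0 := Nat.div_eq_of_lt
    ((Nat.lt_size_self _).trans_le (Nat.pow_le_pow_right (by norm_num) (by omega)))
  rw [h1, h2, e1, e2] at h4
  rw [← h4]
  simp

end Arith

section api

variable {α β γ : Type} [PTCode α] [PTCode β] [PTCode γ]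

@[fun_prop]
protected theorem PTF.natListSum {l : α → List ℕ} (hl : PTF l) : PTF (fun a => (l a).sum) :=
  PTF.comp (g := fun l : List ℕ => l.sum) Arith.ptf_listSum hl

@[fun_prop]
protected theorem PTF.natListProd {l : α → List ℕ} (hl : PTF l) : PTF (fun a => (l a).prod) :=
  PTF.comp (g := fun l : List ℕ => l.prod) Arith.ptf_listProd hl

/-- `∑ i < n, f i` with `n` unary -/
protected theorem PTF.natSumRange {n : α → ℕ} {f : α → ℕ → ℕ} (hn : PTU n) (hf : PTF₂ f) :
    PTF (fun a => ∑ i ∈ Finset.range (n a), f a i) := Arith.ptf_sumRange hn hf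

/-- `∏ i < n, f i` with `n` unary -/
protected theorem PTF.natProdRange {n : α → ℕ} {f : α → ℕ → ℕ} (hn : PTU n) (hf : PTF₂ f) :
    PTF (fun a => ∏ i ∈ Finset.range (n a), f a i) := Arith.ptf_prodRange hn hf

/-- Recursion along a unary counter `i = 0, 1, …` (the step sees `i` in binary). -/
protected theorem PTF.natRec {n : α → ℕ} {b : α → β} {s : α → ℕ → β → β} {r : α → ℕ → β}
    (hn : PTU n) (hb : PTF b) (hs : PTF (fun p : α × ℕ × β => s p.1 p.2.1 p.2.2))
    (h0 : ∀ a, r a 0 = b a) (h1 : ∀ a i, i < n a → r a (i + 1) = s a i (r a i))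
    {B : α → ℕ} (hB : PB B) (hbd : ∀ a, ∀ i ≤ n a, sz (r a i) ≤ B a) :
    PTF (fun a => r a (n a)) := Arith.ptf_natRec hn hb hs h0 h1 hB hbd

/-- factorial of a unary number -/
protected theorem PTF.natFactorial {n : α → ℕ} (hn : PTU n) : PTF (fun a => (n a).factorial) :=
  (PTF.natProdRange hn (f := fun _ i => i + 1) (PTF.natAdd (by fun_prop) (PTF.const 1))).of_eq
    (fun a => Finset.prod_range_add_one_eq_factorial _)

@[fun_prop]
protected theorem PTF.natLand {f g : α → ℕ} (hf : PTF f) (hg : PTF g) :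
    PTF (fun a => f a &&& g a) :=
  PTF.comp (Arith.ptf_bitwise and rfl) (PTF.prodMk hf hg)

@[fun_prop]
protected theorem PTF.natLor {f g : α → ℕ} (hf : PTF f) (hg : PTF g) :
    PTF (fun a => f a ||| g a) :=
  PTF.comp (Arith.ptf_bitwise or rfl) (PTF.prodMk hf hg)

@[fun_prop]
protected theorem PTF.natXor {f g : α → ℕ} (hf : PTF f) (hg : PTF g) :
    PTF (fun a => f a ^^^ g a) :=
  PTF.comp (Arith.ptf_bitwise bne rfl) (PTF.prodMk hf hg)

end api

namespace Arith

variable {α β γ : Type} [PTCode α] [PTCode β] [PTCode γ]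

/-! ### modular inverse -/

/-- one step of the extended Euclidean algorithm modulo `m` -/
def invStep (m : ℕ) (s : (ℕ × ℕ) × (ℕ × ℕ)) : (ℕ × ℕ) × (ℕ × ℕ) :=
  if s.1.2 = 0 then s
  else ((s.1.2, s.1.1 % s.1.2), (s.2.2, (s.2.1 + (m - (s.1.1 / s.1.2 * s.2.2) % m)) % m))

theorem invStep_fst (m : ℕ) (s : (ℕ × ℕ) × (ℕ × ℕ)) : (invStep m s).1 = gcdStep s.1 := by
  rw [invStep, gcdStep]
  split_ifs <;> rfl

theorem invStep_iter_fst (m k : ℕ) (s : (ℕ × ℕ) × (ℕ × ℕ)) :
    ((invStep m)^[k] s).1 = gcdStep^[k] s.1 := by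
  induction k with
  | zero => rfl
  | succ k ih => rw [Function.iterate_succ_apply', Function.iterate_succ_apply', invStep_fst, ih]


theorem invStep_bound (m : ℕ) (s : (ℕ × ℕ) × (ℕ × ℕ)) (h : s.2.1 ≤ max m 1 ∧ s.2.2 ≤ max m 1) :
    (invStep m s).2.1 ≤ max m 1 ∧ (invStep m s).2.2 ≤ max m 1 := by
  rw [invStep]
  split_ifs with h0
  · exact h
  · refine ⟨h.2, ?_⟩
    simp only
    rcases Nat.eq_zero_or_pos m with rfl | hm
    · simpa using h.1
    · exact (Nat.mod_lt _ hm).le.trans (le_max_left _ _)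

/-- `modInv a m * a ≡ gcd a m  (mod m)` -/
def modInv (a m : ℕ) : ℕ := ((invStep m)^[2 * m.size] ((a, m), (1 % m, 0))).2.1




theorem ptf_modInv : PTF (fun p : ℕ × ℕ => modInv p.1 p.2) := by
  have hstep : PTF (fun p : (ℕ × ℕ) × ((ℕ × ℕ) × (ℕ × ℕ)) => invStep p.1.2 p.2) := by
    refine PTF.ite (PTPred.natEq (by fun_prop) (by fun_prop)) (by fun_prop) (by fun_prop)
  have hn : PTF (fun p : ℕ × ℕ => Un.mk (2 * p.2.size)) :=
    PTU.mul (PTU.const 2) (ptu_size PTF.snd)
  have h := PTF.iterate' (n := fun p : ℕ × ℕ => 2 * p.2.size) (f := fun p s => invStep p.2 s)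
    (a := fun p => ((p.1, p.2), (1 % p.2, 0))) hn hstep (by fun_prop)
    (B := fun p => 20 * (sz p.1 + sz p.2) + 20) (by
      have : PB (fun p : ℕ × ℕ => sz p.1) := PTF.fst.sz
      have : PB (fun p : ℕ × ℕ => sz p.2) := PTF.snd.sz
      fun_prop) (fun p i _ => by
      have h1 := gcdStep_iter_max_le i p
      have h2 : max p.1 p.2 < 2 ^ (p.1.size + p.2.size) := by
        refine max_lt ?_ ?_
        · exact (Nat.lt_size_self _).trans_le (Nat.pow_le_pow_right (by norm_num) (by omega))
        · exact (Nat.lt_size_self _).trans_le (Nat.pow_le_pow_right (by norm_num) (by omega))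
      have h3 := Nat.size_le.2 (h1.1.trans_lt h2)
      have h4 := Nat.size_le.2 (h1.2.trans_lt h2)
      have key : ∀ k, ((invStep p.2)^[k] ((p.1, p.2), (1 % p.2, 0))).2.1 ≤ max p.2 1 ∧
          ((invStep p.2)^[k] ((p.1, p.2), (1 % p.2, 0))).2.2 ≤ max p.2 1 := by
        intro k
        induction k with
        | zero =>
          refine ⟨?_, Nat.zero_le _⟩
          exact (Nat.mod_le _ _).trans (le_max_right _ _)
        | succ k ih => rw [Function.iterate_succ_apply']; exact invStep_bound p.2 _ ih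
      have h5 := key i
      have h6 : max p.2 1 < 2 ^ (p.2.size + 1) := by
        rw [pow_succ]
        have := Nat.lt_size_self p.2
        have := Nat.one_le_two_pow (n := p.2.size)
        omega
      have h7 := Nat.size_le.2 (h5.1.trans_lt h6)
      have h8 := Nat.size_le.2 (h5.2.trans_lt h6)
      have h9 := invStep_iter_fst p.2 i ((p.1, p.2), (1 % p.2, 0))
      change sz ((invStep p.2)^[i] ((p.1, p.2), (1 % p.2, 0))) ≤ _
      simp only [sz_prod, sz_nat]
      rw [h9]
      simp only at h3 h4 ⊢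
      change (gcdStep^[i] (p.1, p.2)).1.size ≤ _ at h3
      change (gcdStep^[i] (p.1, p.2)).2.size ≤ _ at h4
      omega)
  exact PTF.of_eq (PTF.comp PTF.fst (PTF.comp PTF.snd h)) (fun p => rfl)

attribute [irreducible] modInv

end Arith

/-- modular inverse, see `Arith.modInv_spec`, `Arith.modInv_eq_inv` -/
@[fun_prop]
protected theorem PTF.natModInv {α : Type} [PTCode α] {f g : α → ℕ} (hf : PTF f) (hg : PTF g) :
    PTF (fun a => Arith.modInv (f a) (g a)) :=
  PTF.comp (g := fun p : ℕ × ℕ => Arith.modInv p.1 p.2) Arith.ptf_modInv (PTF.prodMk hf hg)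

end Crest.Agent.Lib.PT
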