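import Mathlib
import Crest.Prelude.Def_Complexity

-- ▼ part Lib/PT/Cmd
section

/-!
# A structured while-language over Bool stacks and its compilation to `Turing.FinTM2`

* `Cmd`: programs over stacks indexed by `ℕ` with Boolean symbols.
* `Exec c s s' t`: program `c` started on the store `s` ends in `s'` after exactly `t` machine steps.
* `Cmd.toTM c`: the compiled `Turing.FinTM2`.
* `polyTime_of_exec`: a program with a polynomial step bound gives `Crest.Complexity.PolyTime`.
-/

set_option autoImplicit false

namespace Crest.Agent.Lib.PT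

/-- Stores: the contents of all stacks. -/
abbrev Store : Type := ℕ → List Bool

/-- Programs. -/
inductive Cmd : Type
  /-- do nothing (one step) -/
  | skip : Cmd
  /-- push the bit `b` on stack `k` -/
  | push (k : ℕ) (b : Bool) : Cmd
  /-- remove the top of stack `k` (nothing happens if it is empty) -/
  | pop (k : ℕ) : Cmd
  /-- sequential composition -/
  | seq (c d : Cmd) : Cmd
  /-- branch on the top of stack `k`: `e` if it is empty, `c` if the top is `true`, `d` if `false` -/
  | ite (k : ℕ) (e c d : Cmd) : Cmd
  /-- while stack `k` is nonempty do `c` -/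
  | loop (k : ℕ) (c : Cmd) : Cmd
  deriving Inhabited

/-- Big-step semantics with exact step count. -/
inductive Exec : Cmd → Store → Store → ℕ → Prop
  | skip (s : Store) : Exec Cmd.skip s s 1
  | push (k : ℕ) (b : Bool) (s : Store) :
      Exec (Cmd.push k b) s (Function.update s k (b :: s k)) 1
  | pop (k : ℕ) (s : Store) : Exec (Cmd.pop k) s (Function.update s k (s k).tail) 1
  | seq {c d : Cmd} {s s' s'' : Store} {t t' : ℕ} :
      Exec c s s' t → Exec d s' s'' t' → Exec (Cmd.seq c d) s s'' (t + t')
  | ite_nil {k : ℕ} {e c d : Cmd} {s s' : Store} {t : ℕ} :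
      s k = [] → Exec e s s' t → Exec (Cmd.ite k e c d) s s' (1 + t)
  | ite_true {k : ℕ} {e c d : Cmd} {s s' : Store} {t : ℕ} {l : List Bool} :
      s k = true :: l → Exec c s s' t → Exec (Cmd.ite k e c d) s s' (1 + t)
  | ite_false {k : ℕ} {e c d : Cmd} {s s' : Store} {t : ℕ} {l : List Bool} :
      s k = false :: l → Exec d s s' t → Exec (Cmd.ite k e c d) s s' (1 + t)
  | loop_nil {k : ℕ} {c : Cmd} {s : Store} : s k = [] → Exec (Cmd.loop k c) s s 1
  | loop_cons {k : ℕ} {c : Cmd} {s s' s'' : Store} {t t' : ℕ} :
      s k ≠ [] → Exec c s s' t → Exec (Cmd.loop k c) s' s'' t' →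
        Exec (Cmd.loop k c) s s'' (1 + t + t')

namespace Cmd

/-- A bound on the stack indices used by a program. -/
def maxVar : Cmd → ℕ
  | skip => 0
  | push k _ => k
  | pop k => k
  | seq c d => max c.maxVar d.maxVar
  | ite k e c d => max k (max e.maxVar (max c.maxVar d.maxVar))
  | loop k c => max k c.maxVar

/-- Labels of the compiled machine. -/
def Lab : Cmd → Type
  | skip => Unit
  | push _ _ => Unit
  | pop _ => Unit
  | seq c d => Lab c ⊕ Lab d
  | ite _ e c d => Unit ⊕ (Lab e ⊕ (Lab c ⊕ Lab d))
  | loop _ c => Unit ⊕ Lab c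

/-- finitely many labels -/
@[instance_reducible]
noncomputable def labFintype : (c : Cmd) → Fintype (Lab c)
  | skip => inferInstanceAs (Fintype Unit)
  | push _ _ => inferInstanceAs (Fintype Unit)
  | pop _ => inferInstanceAs (Fintype Unit)
  | seq c d =>
      haveI := labFintype c
      haveI := labFintype d
      inferInstanceAs (Fintype (Lab c ⊕ Lab d))
  | ite _ e c d =>
      haveI := labFintype e
      haveI := labFintype c
      haveI := labFintype d
      inferInstanceAs (Fintype (Unit ⊕ (Lab e ⊕ (Lab c ⊕ Lab d))))
  | loop _ c =>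
      haveI := labFintype c
      inferInstanceAs (Fintype (Unit ⊕ Lab c))

noncomputable instance (c : Cmd) : Fintype (Lab c) := labFintype c

/-- Entry label. -/
def entry : (c : Cmd) → Lab c
  | skip => ()
  | push _ _ => ()
  | pop _ => ()
  | seq c _ => Sum.inl (entry c)
  | ite _ _ _ _ => Sum.inl ()
  | loop _ _ => Sum.inl ()

/-- The machine statements of a program. `K` is the type of stacks, `κ` names them, `emb` embeds the
labels of the program into all labels and `exit` is the label to go to at the end. -/
def code {K : Type} (κ : ℕ → K) {Λ : Type} : (c : Cmd) → (Lab c → Λ) → Λ → Lab c →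
    Turing.TM2.Stmt (fun _ : K => Bool) Λ (Option Bool)
  | skip, _, exit, _ => .goto fun _ => exit
  | push k b, _, exit, _ => .push (κ k) (fun _ => b) (.goto fun _ => exit)
  | pop k, _, exit, _ => .pop (κ k) (fun v _ => v) (.goto fun _ => exit)
  | seq c d, emb, exit, l =>
      Sum.elim (fun a => code κ c (fun x => emb (Sum.inl x)) (emb (Sum.inr (entry d))) a)
        (fun a => code κ d (fun x => emb (Sum.inr x)) exit a) l
  | ite k e c d, emb, exit, l =>
      Sum.elim
        (fun _ => .peek (κ k) (fun _ o => o) (.goto fun v =>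
          match v with
          | none => emb (Sum.inr (Sum.inl (entry e)))
          | some true => emb (Sum.inr (Sum.inr (Sum.inl (entry c))))
          | some false => emb (Sum.inr (Sum.inr (Sum.inr (entry d))))))
        (Sum.elim (fun a => code κ e (fun x => emb (Sum.inr (Sum.inl x))) exit a)
          (Sum.elim (fun a => code κ c (fun x => emb (Sum.inr (Sum.inr (Sum.inl x)))) exit a)
            (fun a => code κ d (fun x => emb (Sum.inr (Sum.inr (Sum.inr x)))) exit a))) l
  | loop k c, emb, exit, l =>
      Sum.elim
        (fun _ => .peek (κ k) (fun _ o => o) (.goto fun v =>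
          match v with
          | none => exit
          | some _ => emb (Sum.inr (entry c))))
        (fun a => code κ c (fun x => emb (Sum.inr x)) (emb (Sum.inl ())) a) l

/-- stack names of the compiled machine -/
def nm (N : ℕ) (k : ℕ) : Fin (N + 1) := Fin.ofNat (N + 1) k

/-- the machine contents corresponding to a store -/
def stk (N : ℕ) (s : Store) : ∀ _ : Fin (N + 1), List Bool := fun i => s i

theorem stk_nm {N k : ℕ} (h : k ≤ N) (s : Store) : stk N s (nm N k) = s k := by
  simp [stk, nm, Nat.mod_eq_of_lt (Nat.lt_succ_of_le h)]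

theorem update_stk {N k : ℕ} (h : k ≤ N) (s : Store) (v : List Bool) :
    Function.update (stk N s) (nm N k) v = stk N (Function.update s k v) := by
  funext i
  by_cases hi : (i : ℕ) = k
  · have : i = nm N k := by
      apply Fin.ext
      simp [nm, Nat.mod_eq_of_lt (Nat.lt_succ_of_le h), hi]
    subst this
    simp [stk, hi]
  · have h1 : i ≠ nm N k := by
      intro h2
      apply hi
      rw [h2]
      simp [nm, Nat.mod_eq_of_lt (Nat.lt_succ_of_le h)]
    simp [stk, h1, hi]

end Cmd

open Cmd

section sim

variable {N : ℕ} {Λ : Type}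

/-- iterating the step function -/
def steps (m : Λ → Turing.TM2.Stmt (fun _ : Fin (N + 1) => Bool) Λ (Option Bool)) (t : ℕ)
    (a : Option (Turing.TM2.Cfg (fun _ : Fin (N + 1) => Bool) Λ (Option Bool))) :
    Option (Turing.TM2.Cfg (fun _ : Fin (N + 1) => Bool) Λ (Option Bool)) :=
  (flip bind (Turing.TM2.step m))^[t] a

theorem steps_add (m : Λ → Turing.TM2.Stmt (fun _ : Fin (N + 1) => Bool) Λ (Option Bool))
    (t t' : ℕ) (a) : steps m (t + t') a = steps m t' (steps m t a) := by
  unfold steps
  rw [add_comm t t', Function.iterate_add_apply]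

theorem steps_one (m : Λ → Turing.TM2.Stmt (fun _ : Fin (N + 1) => Bool) Λ (Option Bool))
    (l : Λ) (v : Option Bool) (S) :
    steps m 1 (some ⟨some l, v, S⟩) = some (Turing.TM2.stepAux (m l) v S) := rfl

/-- The compiled code simulates the program. -/
theorem sim {c : Cmd} {s s' : Store} {t : ℕ} (h : Exec c s s' t) :
    ∀ (m : Λ → Turing.TM2.Stmt (fun _ : Fin (N + 1) => Bool) Λ (Option Bool))
      (emb : Lab c → Λ) (exit : Λ), (∀ a, m (emb a) = code (nm N) c emb exit a) →
      c.maxVar ≤ N → ∀ v, ∃ v',
        steps m t (some ⟨some (emb (entry c)), v, stk N s⟩) = some ⟨some exit, v', stk N s'⟩ := by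
  induction h with
  | skip s =>
    intro m emb exit hm _ v
    refine ⟨v, ?_⟩
    rw [steps_one, hm]
    rfl
  | push k b s =>
    intro m emb exit hm hN v
    refine ⟨v, ?_⟩
    rw [steps_one, hm]
    have hk : k ≤ N := hN
    simp only [code, Turing.TM2.stepAux, stk_nm hk, update_stk hk]
  | pop k s =>
    intro m emb exit hm hN v
    refine ⟨v, ?_⟩
    rw [steps_one, hm]
    have hk : k ≤ N := hN
    simp only [code, Turing.TM2.stepAux, stk_nm hk, update_stk hk]
  | @seq c d s s' s'' t t' _ _ ih1 ih2 =>
    intro m emb exit hm hN v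
    have hN' : c.maxVar ≤ N ∧ d.maxVar ≤ N := by simpa [maxVar] using hN
    obtain ⟨v1, h1⟩ := ih1 m (fun x => emb (Sum.inl x)) (emb (Sum.inr (entry d)))
      (fun a => hm (Sum.inl a)) hN'.1 v
    obtain ⟨v2, h2⟩ := ih2 m (fun x => emb (Sum.inr x)) exit (fun a => hm (Sum.inr a)) hN'.2 v1
    refine ⟨v2, ?_⟩
    rw [steps_add]
    simp only [entry]
    rw [h1, h2]
  | @ite_nil k e c d s s' t hk _ ih =>
    intro m emb exit hm hN v
    have hN' : k ≤ N ∧ e.maxVar ≤ N ∧ c.maxVar ≤ N ∧ d.maxVar ≤ N := by simpa [maxVar] using hN
    obtain ⟨v1, h1⟩ := ih m (fun x => emb (Sum.inr (Sum.inl x))) exit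
      (fun a => hm (Sum.inr (Sum.inl a))) hN'.2.1 none
    refine ⟨v1, ?_⟩
    rw [steps_add, steps_one, hm]
    simp only [code, entry, Sum.elim_inl, Turing.TM2.stepAux, stk_nm hN'.1, hk, List.head?_nil]
    exact h1
  | @ite_true k e c d s s' t l hk _ ih =>
    intro m emb exit hm hN v
    have hN' : k ≤ N ∧ e.maxVar ≤ N ∧ c.maxVar ≤ N ∧ d.maxVar ≤ N := by simpa [maxVar] using hN
    obtain ⟨v1, h1⟩ := ih m (fun x => emb (Sum.inr (Sum.inr (Sum.inl x)))) exit
      (fun a => hm (Sum.inr (Sum.inr (Sum.inl a)))) hN'.2.2.1 (some true)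
    refine ⟨v1, ?_⟩
    rw [steps_add, steps_one, hm]
    simp only [code, entry, Sum.elim_inl, Turing.TM2.stepAux, stk_nm hN'.1, hk, List.head?_cons]
    exact h1
  | @ite_false k e c d s s' t l hk _ ih =>
    intro m emb exit hm hN v
    have hN' : k ≤ N ∧ e.maxVar ≤ N ∧ c.maxVar ≤ N ∧ d.maxVar ≤ N := by simpa [maxVar] using hN
    obtain ⟨v1, h1⟩ := ih m (fun x => emb (Sum.inr (Sum.inr (Sum.inr x)))) exit
      (fun a => hm (Sum.inr (Sum.inr (Sum.inr a)))) hN'.2.2.2 (some false)
    refine ⟨v1, ?_⟩
    rw [steps_add, steps_one, hm]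
    simp only [code, entry, Sum.elim_inl, Turing.TM2.stepAux, stk_nm hN'.1, hk, List.head?_cons]
    exact h1
  | @loop_nil k c s hk =>
    intro m emb exit hm hN v
    have hN' : k ≤ N ∧ c.maxVar ≤ N := by simpa [maxVar] using hN
    refine ⟨none, ?_⟩
    rw [steps_one, hm]
    simp only [code, entry, Sum.elim_inl, Turing.TM2.stepAux, stk_nm hN'.1, hk, List.head?_nil]
  | @loop_cons k c s s' s'' t t' hk _ _ ih1 ih2 =>
    intro m emb exit hm hN v
    have hN' : k ≤ N ∧ c.maxVar ≤ N := by simpa [maxVar] using hN
    obtain ⟨b, l, hbl⟩ : ∃ b l, s k = b :: l := List.exists_cons_of_ne_nil hk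
    obtain ⟨v1, h1⟩ := ih1 m (fun x => emb (Sum.inr x)) (emb (Sum.inl ()))
      (fun a => hm (Sum.inr a)) hN'.2 (some b)
    obtain ⟨v2, h2⟩ := ih2 m emb exit hm hN v1
    refine ⟨v2, ?_⟩
    rw [steps_add, steps_add, steps_one, hm]
    simp only [code, entry, Sum.elim_inl, Turing.TM2.stepAux, stk_nm hN'.1, hbl, List.head?_cons]
    simp only [entry] at h2
    rw [h1, h2]

end sim

/-- the statements of the compiled machine -/
def prog (c : Cmd) : Option (Lab c) →
    Turing.TM2.Stmt (fun _ : Fin (c.maxVar + 1) => Bool) (Option (Lab c)) (Option Bool)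
  | none => .load (fun _ => none) .halt
  | some a => code (nm c.maxVar) c some none a

/-- The compiled machine: input and output on stack `0`. -/
noncomputable def Cmd.toTM (c : Cmd) : Turing.FinTM2 where
  K := Fin (c.maxVar + 1)
  k₀ := nm c.maxVar 0
  k₁ := nm c.maxVar 0
  Γ := fun _ => Bool
  Λ := Option (Lab c)
  main := some (entry c)
  σ := Option Bool
  initialState := none
  m := prog c

/-- the store with `x` on stack `0` and nothing else -/
def init (x : List Bool) : Store := fun k => if k = 0 then x else []

@[simp] theorem init_zero (x : List Bool) : init x 0 = x := rfl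

@[simp] theorem init_succ (x : List Bool) (k : ℕ) : init x (k + 1) = [] := rfl

theorem stk_init_eq (N : ℕ) (x : List Bool) (i : Fin (N + 1)) :
    stk N (init x) i = if i = nm N 0 then x else [] := by
  have : (i : ℕ) = 0 ↔ i = nm N 0 := by
    constructor
    · intro h; apply Fin.ext; simp [nm, h]
    · intro h; rw [h]; simp [nm]
  unfold stk init
  by_cases h : (i : ℕ) = 0
  · rw [if_pos h, if_pos (this.1 h)]
  · rw [if_neg h, if_neg (fun h2 => h (this.2 h2))]

theorem initList_toTM (c : Cmd) (x : List Bool) :
    Turing.initList (Cmd.toTM c) x =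
      (⟨some (some (entry c)), none, stk c.maxVar (init x)⟩ :
        Turing.TM2.Cfg (fun _ : Fin (c.maxVar + 1) => Bool) (Option (Lab c)) (Option Bool)) := by
  have h : (fun i : Fin (c.maxVar + 1) => if i = nm c.maxVar 0 then x else []) =
      stk c.maxVar (init x) := by
    funext i
    rw [stk_init_eq]
  rw [← h]
  rfl

theorem haltList_toTM (c : Cmd) (x : List Bool) :
    Turing.haltList (Cmd.toTM c) x =
      (⟨none, none, stk c.maxVar (init x)⟩ :
        Turing.TM2.Cfg (fun _ : Fin (c.maxVar + 1) => Bool) (Option (Lab c)) (Option Bool)) := by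
  have h : (fun i : Fin (c.maxVar + 1) => if i = nm c.maxVar 0 then x else []) =
      stk c.maxVar (init x) := by
    funext i
    rw [stk_init_eq]
  rw [← h]
  rfl

/-- The machine computes: the output configuration is reached within `t + 1` steps. -/
theorem outputs_of_exec {c : Cmd} {x y : List Bool} {t : ℕ} (h : Exec c (init x) (init y) t) :
    (flip bind (Cmd.toTM c).step)^[t + 1] (some (Turing.initList (Cmd.toTM c) x)) =
      some (Turing.haltList (Cmd.toTM c) y) := by
  rw [initList_toTM, haltList_toTM]
  obtain ⟨v', hv⟩ := sim (N := c.maxVar) (Λ := Option (Lab c)) h (prog c) some none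
    (fun a => rfl) le_rfl none
  have h2 : steps (prog c) (t + 1) (some ⟨some (some (entry c)), none, stk c.maxVar (init x)⟩) =
      some ⟨none, none, stk c.maxVar (init y)⟩ := by
    rw [steps_add, hv, steps_one]
    rfl
  exact h2

/-- A program with a polynomial step bound yields `Crest.Complexity.PolyTime`. -/
theorem polyTime_of_exec {f : List Bool → List Bool} (c : Cmd) (p : Polynomial ℕ)
    (h : ∀ x, ∃ t, t ≤ p.eval x.length ∧ Exec c (init x) (init (f x)) t) :
    Crest.Complexity.PolyTime f := by
  refine ⟨{ tm := Cmd.toTM c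
            inputAlphabet := Equiv.refl _
            outputAlphabet := Equiv.refl _
            time := p + 1
            outputsFun := fun x => ?_ }⟩
  have e1 : ∀ y : List Bool, (List.map (id : Bool → Bool) y) = y := fun y => List.map_id y
  have h1 : ∀ y z : List Bool, y = x → z = f x →
      (flip bind (Cmd.toTM c).step)^[(h x).choose + 1] (some (Turing.initList (Cmd.toTM c) y)) =
      some (Turing.haltList (Cmd.toTM c) z) := by
    rintro y z rfl rfl
    exact outputs_of_exec (h y).choose_spec.2
  exact
    { steps := (h x).choose + 1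
      evals_in_steps := h1 _ _ (e1 x) (e1 (f x))
      steps_le_m := by
        simp only [Polynomial.eval_add, Polynomial.eval_one]
        exact Nat.add_le_add_right (h x).choose_spec.1 1 }

end Crest.Agent.Lib.PT
private theorem rz_f8bd72733d : type_of% @_root_.Crest.Agent.Lib.PT.Cmd.code.eq_def := @_root_.Crest.Agent.Lib.PT.Cmd.code.eq_def -- L107
private theorem rz_100e5aa546 : type_of% @_root_.Crest.Agent.Lib.PT.Cmd.code.eq_1 := @_root_.Crest.Agent.Lib.PT.Cmd.code.eq_1 -- L107
private theorem rz_a5431f3dd7 : type_of% @_root_.Crest.Agent.Lib.PT.Cmd.entry.eq_def := @_root_.Crest.Agent.Lib.PT.Cmd.entry.eq_def -- L97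
private theorem rz_317a9ad4b1 : type_of% @_root_.Crest.Agent.Lib.PT.Cmd.entry.eq_1 := @_root_.Crest.Agent.Lib.PT.Cmd.entry.eq_1 -- L97
private theorem rz_5b318dfeb5 : type_of% @_root_.Crest.Agent.Lib.PT.Cmd.maxVar.eq_def := @_root_.Crest.Agent.Lib.PT.Cmd.maxVar.eq_def -- L58
private theorem rz_4be9625ae4 : type_of% @_root_.Crest.Agent.Lib.PT.Cmd.maxVar.eq_1 := @_root_.Crest.Agent.Lib.PT.Cmd.maxVar.eq_1 -- L58
end

-- ▼ part Lib/PT/Core

/-!
# Polynomial-time functions on bit strings: closure properties

`PT f`: the total function `f : List Bool → List Bool` is computed by a `Cmd` program within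
polynomially many steps (input and output on stack `0`, everything else empty).
Closure: `PT.id`, `PT.const`, `PT.comp`, `PT.cons`, `PT.tail`, `PT.reverse`, `PT.flatMap`,
`PT.pair`, `PT.fst`, `PT.snd`, `PT.append`, `PT.ite`, `PT.iter`, `PT.iter'`, `PT.clock`;
`PT.length_bound`, `PT.polyTime`.
-/

set_option autoImplicit false
set_option linter.dupNamespace false

namespace Crest.Agent.Lib.PT

open Function

/-! ### evaluation of polynomials over `ℕ` is monotone -/

theorem polyEval_mono (p : Polynomial ℕ) {a b : ℕ} (h : a ≤ b) : p.eval a ≤ p.eval b := by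
  rw [Polynomial.eval_eq_sum_range, Polynomial.eval_eq_sum_range]
  exact Finset.sum_le_sum fun i _ => Nat.mul_le_mul_left _ (Nat.pow_le_pow_left h i)

/-! ### running programs -/

/-- `c` leads from `s` to `s'` in at most `n` steps. -/
def Run (c : Cmd) (s s' : Store) (n : ℕ) : Prop := ∃ t, t ≤ n ∧ Exec c s s' t

theorem Exec.run {c : Cmd} {s s' : Store} {t : ℕ} (h : Exec c s s' t) : Run c s s' t :=
  ⟨t, le_rfl, h⟩

theorem Run.mono {c : Cmd} {s s' : Store} {n m : ℕ} (h : Run c s s' n) (hm : n ≤ m) :
    Run c s s' m := by
  obtain ⟨t, ht, h⟩ := h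
  exact ⟨t, ht.trans hm, h⟩

theorem Run.seq {c d : Cmd} {s s' s'' : Store} {n m : ℕ} (h : Run c s s' n)
    (h' : Run d s' s'' m) : Run (Cmd.seq c d) s s'' (n + m) := by
  obtain ⟨t, ht, h⟩ := h
  obtain ⟨t', ht', h'⟩ := h'
  exact ⟨t + t', Nat.add_le_add ht ht', Exec.seq h h'⟩

theorem Run.ite_nil {k : ℕ} {e c d : Cmd} {s s' : Store} {n : ℕ} (hk : s k = [])
    (h : Run e s s' n) : Run (Cmd.ite k e c d) s s' (1 + n) := by
  obtain ⟨t, ht, h⟩ := h
  exact ⟨1 + t, Nat.add_le_add_left ht 1, Exec.ite_nil hk h⟩

theorem Run.ite_true {k : ℕ} {e c d : Cmd} {s s' : Store} {n : ℕ} {l : List Bool}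
    (hk : s k = true :: l) (h : Run c s s' n) : Run (Cmd.ite k e c d) s s' (1 + n) := by
  obtain ⟨t, ht, h⟩ := h
  exact ⟨1 + t, Nat.add_le_add_left ht 1, Exec.ite_true hk h⟩

theorem Run.ite_false {k : ℕ} {e c d : Cmd} {s s' : Store} {n : ℕ} {l : List Bool}
    (hk : s k = false :: l) (h : Run d s s' n) : Run (Cmd.ite k e c d) s s' (1 + n) := by
  obtain ⟨t, ht, h⟩ := h
  exact ⟨1 + t, Nat.add_le_add_left ht 1, Exec.ite_false hk h⟩

theorem Run.loop_nil {k : ℕ} {c : Cmd} {s : Store} (hk : s k = []) :
    Run (Cmd.loop k c) s s 1 := ⟨1, le_rfl, Exec.loop_nil hk⟩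

theorem Run.loop_cons {k : ℕ} {c : Cmd} {s s' s'' : Store} {n m : ℕ} (hk : s k ≠ [])
    (h : Run c s s' n) (h' : Run (Cmd.loop k c) s' s'' m) :
    Run (Cmd.loop k c) s s'' (1 + n + m) := by
  obtain ⟨t, ht, h⟩ := h
  obtain ⟨t', ht', h'⟩ := h'
  exact ⟨1 + t + t', by omega, Exec.loop_cons hk h h'⟩

theorem Run.of_eq {c : Cmd} {s s' s'' : Store} {n m : ℕ} (h : Run c s s' n) (hs : s' = s'')
    (hn : n ≤ m) : Run c s s'' m := hs ▸ h.mono hn

/-- Each step pushes at most one symbol. -/
theorem Exec.length_le {c : Cmd} {s s' : Store} {t : ℕ} (h : Exec c s s' t) (k : ℕ) :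
    (s' k).length ≤ (s k).length + t := by
  induction h with
  | skip s => omega
  | push j b s =>
    by_cases hj : k = j
    · subst hj; simp
    · simp [hj]
  | pop j s =>
    by_cases hj : k = j
    · subst hj; simp; omega
    · simp [hj]
  | seq _ _ ih1 ih2 => omega
  | ite_nil _ _ ih => omega
  | ite_true _ _ ih => omega
  | ite_false _ _ ih => omega
  | loop_nil _ => omega
  | loop_cons _ _ _ ih1 ih2 => omega

/-! ### shifting programs to higher stacks -/

/-- Rename stack `k` to `k + m`. -/
def Cmd.shift (m : ℕ) : Cmd → Cmd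
  | .skip => .skip
  | .push k b => .push (k + m) b
  | .pop k => .pop (k + m)
  | .seq c d => .seq (c.shift m) (d.shift m)
  | .ite k e c d => .ite (k + m) (e.shift m) (c.shift m) (d.shift m)
  | .loop k c => .loop (k + m) (c.shift m)

/-- Lower stacks from `S`, the stacks from `m` on given by `s`. -/
def glue (m : ℕ) (S s : Store) : Store := fun j => if j < m then S j else s (j - m)

theorem glue_add (m : ℕ) (S s : Store) (k : ℕ) : glue m S s (k + m) = s k := by
  simp [glue]

theorem glue_update (m : ℕ) (S s : Store) (k : ℕ) (v : List Bool) :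
    glue m S (update s k v) = update (glue m S s) (k + m) v := by
  funext j
  unfold glue
  by_cases hj : j < m
  · have : j ≠ k + m := by omega
    rw [if_pos hj, update_of_ne this, if_pos hj]
  · by_cases hk : j = k + m
    · subst hk
      rw [if_neg hj, update_self, Nat.add_sub_cancel, update_self]
    · rw [if_neg hj, update_of_ne hk, if_neg hj, update_of_ne]
      omega

theorem Exec.shift {c : Cmd} {s s' : Store} {t : ℕ} (h : Exec c s s' t) (m : ℕ) (S : Store) :
    Exec (c.shift m) (glue m S s) (glue m S s') t := by
  induction h with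
  | skip s => exact Exec.skip _
  | push k b s =>
    rw [glue_update]
    have := Exec.push (k + m) b (glue m S s)
    rwa [glue_add] at this
  | pop k s =>
    rw [glue_update]
    have := Exec.pop (k + m) (glue m S s)
    rwa [glue_add] at this
  | seq _ _ ih1 ih2 => exact Exec.seq ih1 ih2
  | ite_nil hk _ ih => exact Exec.ite_nil (by rw [glue_add]; exact hk) ih
  | ite_true hk _ ih => exact Exec.ite_true (by rw [glue_add]; exact hk) ih
  | ite_false hk _ ih => exact Exec.ite_false (by rw [glue_add]; exact hk) ih
  | loop_nil hk => exact Exec.loop_nil (by rw [glue_add]; exact hk)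
  | loop_cons hk _ _ ih1 ih2 => exact Exec.loop_cons (by rw [glue_add]; exact hk) ih1 ih2

/-! ### polynomial-time functions -/

/-- `f` is computed by a program in polynomially many steps. -/
def PT (f : List Bool → List Bool) : Prop :=
  ∃ (c : Cmd) (p : Polynomial ℕ), ∀ x, Run c (init x) (init (f x)) (p.eval x.length)

theorem PT.polyTime {f : List Bool → List Bool} (hf : PT f) : Crest.Complexity.PolyTime f := by
  obtain ⟨c, p, h⟩ := hf
  exact polyTime_of_exec c p h

/-- calling a program on stack `m` when all higher stacks are empty. -/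
theorem call_run {c : Cmd} {x y : List Bool} {n : ℕ} (h : Run c (init x) (init y) n) (m : ℕ)
    (S : Store) (hm : S m = x) (hS : ∀ j, m < j → S j = []) :
    Run (c.shift m) S (update S m y) n := by
  obtain ⟨t, ht, h⟩ := h
  refine ⟨t, ht, ?_⟩
  have e1 : glue m S (init x) = S := by
    funext j
    unfold glue init
    by_cases hj : j < m
    · rw [if_pos hj]
    · rw [if_neg hj]
      by_cases h0 : j - m = 0
      · have : j = m := by omega
        rw [if_pos h0, this, hm]
      · rw [if_neg h0, hS j (by omega)]
  have e2 : glue m S (init y) = update S m y := by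
    funext j
    unfold glue init
    by_cases hj : j < m
    · have : j ≠ m := by omega
      rw [if_pos hj, update_of_ne this]
    · rw [if_neg hj]
      by_cases h0 : j - m = 0
      · have : j = m := by omega
        rw [if_pos h0, this, update_self]
      · have : j ≠ m := by omega
        rw [if_neg h0, update_of_ne this, hS j (by omega)]
  have := h.shift m S
  rwa [e1, e2] at this

theorem PT.bound {f : List Bool → List Bool} (hf : PT f) :
    ∃ p : Polynomial ℕ, ∀ x, (f x).length ≤ p.eval x.length := by
  obtain ⟨c, p, h⟩ := hf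
  refine ⟨Polynomial.X + p, fun x => ?_⟩
  obtain ⟨t, ht, h⟩ := h x
  have := h.length_le 0
  simp only [init_zero] at this
  simp only [Polynomial.eval_add, Polynomial.eval_X]
  omega

theorem PT.length_bound {f : List Bool → List Bool} (hf : PT f) :
    ∃ p : Polynomial ℕ, ∀ x, (f x).length ≤ p.eval x.length := hf.bound

/-! ### small programs -/

/-- move stack `a` onto stack `b` (reversing) -/
def mv (a b : ℕ) : Cmd :=
  .loop a (.ite a .skip (.seq (.pop a) (.push b true)) (.seq (.pop a) (.push b false)))

/-- move stack `a` onto both `b` and `c` (reversing) -/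
def mv2 (a b c : ℕ) : Cmd :=
  .loop a (.ite a .skip (.seq (.pop a) (.seq (.push b true) (.push c true)))
    (.seq (.pop a) (.seq (.push b false) (.push c false))))

/-- empty stack `a` -/
def clear (a : ℕ) : Cmd := .loop a (.pop a)

/-- push the list `w` on stack `k` (the head of `w` will be the top) -/
def pushAll (k : ℕ) : List Bool → Cmd
  | [] => .skip
  | b :: w => .seq (pushAll k w) (.push k b)

/-- for each symbol `x` popped from `a` push `h x` on `b` -/
def mvMap (a b : ℕ) (h : Bool → List Bool) : Cmd :=
  .loop a (.ite a .skip (.seq (.pop a) (pushAll b (h true))) (.seq (.pop a) (pushAll b (h false))))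

theorem run_push (k : ℕ) (b : Bool) (S : Store) :
    Run (.push k b) S (update S k (b :: S k)) 1 := (Exec.push k b S).run

theorem run_pop (k : ℕ) (S : Store) : Run (.pop k) S (update S k (S k).tail) 1 :=
  (Exec.pop k S).run

theorem run_skip (S : Store) : Run .skip S S 1 := (Exec.skip S).run

theorem run_pushAll (k : ℕ) (w : List Bool) (S : Store) :
    Run (pushAll k w) S (update S k (w ++ S k)) (w.length + 1) := by
  induction w with
  | nil => simpa [pushAll] using run_skip S
  | cons b w ih =>
    refine (ih.seq (run_push k b _)).of_eq ?_ ?_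
    · simp
    · simp

theorem run_mv {a b : ℕ} (hab : a ≠ b) (S : Store) :
    Run (mv a b) S (update (update S b ((S a).reverse ++ S b)) a []) (4 * (S a).length + 1) := by
  generalize hl : S a = l
  induction l generalizing S with
  | nil =>
    refine (Run.loop_nil hl).of_eq ?_ (by simp)
    funext j
    by_cases h1 : j = a
    · subst h1; simp [hl]
    · by_cases h2 : j = b
      · subst h2; simp [h1]
      · simp [h1, h2]
  | cons x l ih =>
    have hne : S a ≠ [] := by rw [hl]; simp
    set S' : Store := update (update S a l) b (x :: S b) with hS'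
    have hbody : Run (.ite a .skip (.seq (.pop a) (.push b true)) (.seq (.pop a) (.push b false)))
        S S' 3 := by
      have e : update (update S a (S a).tail) b (x :: (update S a (S a).tail) b) = S' := by
        rw [hl, update_of_ne hab.symm]
        rfl
      cases x
      · exact Run.ite_false (n := 2) hl
          (((run_pop a S).seq (run_push b false _)).of_eq e le_rfl)
      · exact Run.ite_true (n := 2) hl
          (((run_pop a S).seq (run_push b true _)).of_eq e le_rfl)
    have hS'a : S' a = l := by simp [hS', hab]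
    refine (Run.loop_cons hne hbody (ih S' hS'a)).of_eq ?_ ?_
    · funext j
      by_cases h1 : j = a
      · subst h1; simp
      · by_cases h2 : j = b
        · subst h2; simp [h1, hS']
        · simp [h1, h2, hS']
    · simp only [List.length_cons]; omega

theorem run_mv2 {a b c : ℕ} (hab : a ≠ b) (hac : a ≠ c) (hbc : b ≠ c) (S : Store) :
    Run (mv2 a b c) S
      (update (update (update S b ((S a).reverse ++ S b)) c ((S a).reverse ++ S c)) a [])
      (5 * (S a).length + 1) := by
  generalize hl : S a = l
  induction l generalizing S with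
  | nil =>
    refine (Run.loop_nil hl).of_eq ?_ (by simp)
    funext j
    by_cases h1 : j = a
    · subst h1; simp [hl]
    · by_cases h2 : j = b
      · subst h2; simp [h1, hbc]
      · by_cases h3 : j = c
        · subst h3; simp [h1]
        · simp [h1, h2, h3]
  | cons x l ih =>
    have hne : S a ≠ [] := by rw [hl]; simp
    set S' : Store := update (update (update S a l) b (x :: S b)) c (x :: S c) with hS'
    have hbody : Run (.ite a .skip (.seq (.pop a) (.seq (.push b true) (.push c true)))
        (.seq (.pop a) (.seq (.push b false) (.push c false)))) S S' 4 := by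
      have e : update (update (update S a (S a).tail) b (x :: (update S a (S a).tail) b)) c
          (x :: (update (update S a (S a).tail) b (x :: (update S a (S a).tail) b)) c) = S' := by
        rw [hl, update_of_ne hab.symm, update_of_ne hbc.symm, update_of_ne hac.symm]
        rfl
      cases x
      · exact Run.ite_false (n := 3) hl
          (((run_pop a S).seq ((run_push b false _).seq (run_push c false _))).of_eq e le_rfl)
      · exact Run.ite_true (n := 3) hl
          (((run_pop a S).seq ((run_push b true _).seq (run_push c true _))).of_eq e le_rfl)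
    have hS'a : S' a = l := by simp [hS', hab, hac]
    refine (Run.loop_cons hne hbody (ih S' hS'a)).of_eq ?_ ?_
    · funext j
      by_cases h1 : j = a
      · subst h1; simp
      · by_cases h2 : j = b
        · subst h2; simp [h1, hS', hbc]
        · by_cases h3 : j = c
          · subst h3; simp [h1, hS', h2]
          · simp [h1, h2, h3, hS']
    · simp only [List.length_cons]; omega

theorem run_clear (a : ℕ) (S : Store) :
    Run (clear a) S (update S a []) (2 * (S a).length + 1) := by
  generalize hl : S a = l
  induction l generalizing S with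
  | nil =>
    refine (Run.loop_nil hl).of_eq ?_ (by simp)
    funext j
    by_cases h1 : j = a
    · subst h1; simp [hl]
    · simp [h1]
  | cons x l ih =>
    have hne : S a ≠ [] := by rw [hl]; simp
    have h1 := ih (update S a (S a).tail) (by simp [hl])
    refine (Run.loop_cons hne (run_pop a S) h1).of_eq ?_ ?_
    · simp
    · simp only [List.length_cons]; omega

theorem run_mvMap {a b : ℕ} (hab : a ≠ b) (h : Bool → List Bool) (S : Store) :
    Run (mvMap a b h) S (update (update S b ((S a).reverse.flatMap h ++ S b)) a [])
      (((h true).length + (h false).length + 4) * (S a).length + 1) := by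
  generalize hl : S a = l
  induction l generalizing S with
  | nil =>
    refine (Run.loop_nil hl).of_eq ?_ (by simp)
    funext j
    by_cases h1 : j = a
    · subst h1; simp [hl]
    · by_cases h2 : j = b
      · subst h2; simp [h1]
      · simp [h1, h2]
  | cons x l ih =>
    have hne : S a ≠ [] := by rw [hl]; simp
    set S' : Store := update (update S a l) b (h x ++ S b) with hS'
    have hbody : Run (.ite a .skip (.seq (.pop a) (pushAll b (h true)))
        (.seq (.pop a) (pushAll b (h false)))) S S' ((h true).length + (h false).length + 3) := by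
      have e : update (update S a (S a).tail) b (h x ++ (update S a (S a).tail) b) = S' := by
        rw [hl, update_of_ne hab.symm]
        rfl
      cases x
      · exact (Run.ite_false (n := 1 + ((h false).length + 1)) hl
          (((run_pop a S).seq (run_pushAll b (h false) _)).of_eq e le_rfl)).mono (by omega)
      · exact (Run.ite_true (n := 1 + ((h true).length + 1)) hl
          (((run_pop a S).seq (run_pushAll b (h true) _)).of_eq e le_rfl)).mono (by omega)
    have hS'a : S' a = l := by simp [hS', hab]
    refine (Run.loop_cons hne hbody (ih S' hS'a)).of_eq ?_ ?_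
    · funext j
      by_cases h1 : j = a
      · subst h1; simp
      · by_cases h2 : j = b
        · subst h2; simp [h1, hS']
        · simp [h1, h2, hS']
    · simp only [List.length_cons]
      ring_nf
      omega

/-! ### first closure properties -/

theorem PT.of_run {f : List Bool → List Bool} (c : Cmd) (p : Polynomial ℕ)
    (h : ∀ x, Run c (init x) (init (f x)) (p.eval x.length)) : PT f := ⟨c, p, h⟩

theorem PT.congr {f g : List Bool → List Bool} (hf : PT f) (h : ∀ x, f x = g x) : PT g := by
  have : f = g := funext h
  rwa [← this]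

theorem PT.id : PT (fun x => x) :=
  ⟨.skip, 1, fun x => by simpa using run_skip (init x)⟩

theorem PT.comp {f g : List Bool → List Bool} (hg : PT g) (hf : PT f) : PT (fun x => g (f x)) := by
  obtain ⟨b, hb⟩ := hf.length_bound
  obtain ⟨c, p, hc⟩ := hf
  obtain ⟨d, q, hd⟩ := hg
  refine ⟨.seq c d, p + q.comp b, fun x => ?_⟩
  refine ((hc x).seq (hd (f x))).mono ?_
  rw [Polynomial.eval_add, Polynomial.eval_comp]
  exact Nat.add_le_add_left (polyEval_mono q (hb x)) _

theorem PT.cons (b : Bool) : PT (fun x => b :: x) := by
  refine ⟨.push 0 b, 1, fun x => ?_⟩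
  refine (run_push 0 b (init x)).of_eq ?_ (by simp)
  funext j
  rcases j with _ | j <;> simp [init]

theorem PT.tail : PT List.tail := by
  refine ⟨.pop 0, 1, fun x => ?_⟩
  refine (run_pop 0 (init x)).of_eq ?_ (by simp)
  funext j
  rcases j with _ | j <;> simp [init]

theorem PT.const (w : List Bool) : PT (fun _ => w) := by
  refine ⟨.seq (clear 0) (pushAll 0 w), 2 * Polynomial.X + Polynomial.C (w.length + 2),
    fun x => ?_⟩
  refine ((run_clear 0 (init x)).seq (run_pushAll 0 w _)).of_eq ?_ ?_
  · funext j
    rcases j with _ | j <;> simp [init]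
  · simp only [init_zero, Polynomial.eval_add, Polynomial.eval_mul, Polynomial.eval_ofNat,
      Polynomial.eval_X, Polynomial.eval_C]
    omega

theorem PT.flatMap (h : Bool → List Bool) : PT (fun x => x.flatMap h) := by
  refine ⟨.seq (mv 0 1) (mvMap 1 0 h),
    Polynomial.C ((h true).length + (h false).length + 8) * Polynomial.X + 2, fun x => ?_⟩
  refine ((run_mv (by decide) (init x)).seq (run_mvMap (by decide) h _)).of_eq ?_ ?_
  · funext j
    rcases j with _ | _ | j <;> simp [init]
  · simp only [init_zero, ne_eq, one_ne_zero, not_false_eq_true, update_of_ne, update_self,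
      List.length_append, List.length_reverse, Polynomial.eval_add, Polynomial.eval_mul,
      Polynomial.eval_C, Polynomial.eval_X, Polynomial.eval_ofNat]
    have : (init x 1) = [] := rfl
    rw [this]
    simp only [List.length_nil, add_zero]
    ring_nf
    omega

theorem PT.core_reverse : PT List.reverse := by
  refine ⟨.seq (mv 0 1) (.seq (mv 1 2) (mv 2 0)), 12 * Polynomial.X + 3, fun x => ?_⟩
  refine ((run_mv (by decide) (init x)).seq ((run_mv (by decide) _).seq
    (run_mv (by decide) _))).of_eq ?_ ?_
  · funext j
    rcases j with _ | _ | _ | j <;> simp [init]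
  · simp [init]
    omega

/-! ### pairing -/

/-- Self-delimiting pairing of bit strings. -/
def pair (x y : List Bool) : List Bool := x.flatMap (fun b => [true, b]) ++ false :: y

/-- First component of a pair (total decoder). -/
def fst : List Bool → List Bool
  | true :: b :: r => b :: fst r
  | _ => []

/-- Second component of a pair (total decoder). -/
def snd : List Bool → List Bool
  | true :: _ :: r => snd r
  | false :: y => y
  | _ => []

/-- Decode a pair. -/
def split : List Bool → List Bool × List Bool
  | true :: b :: w => (b :: (split w).1, (split w).2)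
  | false :: w => ([], w)
  | [true] => ([], [])
  | [] => ([], [])

theorem split_eq (z : List Bool) : split z = (fst z, snd z) := by
  fun_induction split z with
  | case1 b w ih => simp [fst, snd, ih]
  | case2 w => simp [fst, snd]
  | case3 => simp [fst, snd]
  | case4 => simp [fst, snd]

@[simp] theorem split_pair (x y : List Bool) : split (pair x y) = (x, y) := by
  induction x with
  | nil => simp [pair, split]
  | cons b x ih =>
    have : pair (b :: x) y = true :: b :: pair x y := by simp [pair]
    rw [this, split, ih]

theorem core_fst_pair (x y : List Bool) : fst (pair x y) = x := by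
  have := split_pair x y
  rw [split_eq] at this
  exact (Prod.mk.inj this).1

theorem core_snd_pair (x y : List Bool) : snd (pair x y) = y := by
  have := split_pair x y
  rw [split_eq] at this
  exact (Prod.mk.inj this).2

theorem core_length_pair (x y : List Bool) :
    (pair x y).length = 2 * x.length + y.length + 1 := by
  simp [pair]
  ring

theorem length_split (z : List Bool) : (split z).1.length + (split z).2.length ≤ z.length := by
  fun_induction split z with
  | case1 b w ih => simp; omega
  | case2 w => simp
  | case3 => simp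
  | case4 => simp

theorem length_fst (z : List Bool) : (fst z).length ≤ z.length := by
  have := length_split z
  simp only [split_eq] at this
  omega

theorem length_snd (z : List Bool) : (snd z).length ≤ z.length := by
  have := length_split z
  simp only [split_eq] at this
  omega

/-- body of the parsing loop: reads stack `0`, flag on stack `2`, first component (reversed)
on stack `1`. -/
def parseBody : Cmd :=
  .ite 0 (.pop 2)
    (.seq (.pop 0) (.ite 0 (.pop 2) (.seq (.pop 0) (.push 1 true)) (.seq (.pop 0) (.push 1 false))))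
    (.seq (.pop 0) (.pop 2))

/-- split stack `0` into (reversed) first component on stack `1` and second component on `0` -/
def parse : Cmd := .seq (.push 2 true) (.loop 2 parseBody)

/-- explicit small stores -/
def st3 (a b c : List Bool) : Store := fun k =>
  match k with
  | 0 => a
  | 1 => b
  | 2 => c
  | _ + 3 => []

theorem run_parse_loop (z acc : List Bool) :
    Run (.loop 2 parseBody) (st3 z acc [true])
      (st3 (split z).2 ((split z).1.reverse ++ acc) []) (6 * z.length + 6) := by
  have fin : ∀ a b : List Bool, Run (.loop 2 parseBody) (st3 a b []) (st3 a b []) 1 :=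
    fun a b => Run.loop_nil rfl
  have hne : ∀ a b : List Bool, st3 a b [true] 2 ≠ [] := fun a b => by simp [st3]
  fun_induction split z generalizing acc with
  | case1 b w ih =>
    have hb : Run parseBody (st3 (true :: b :: w) acc [true]) (st3 w (b :: acc) [true]) 5 := by
      refine (Run.ite_true (n := 1 + (1 + 2)) (l := b :: w) rfl ((run_pop 0 _).seq ?_)).of_eq
        rfl (by omega)
      have e1 : update (st3 (true :: b :: w) acc [true]) 0
          ((st3 (true :: b :: w) acc [true]) 0).tail = st3 (b :: w) acc [true] := by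
        funext j; rcases j with _ | _ | _ | j <;> simp [st3]
      rw [e1]
      have e2 : update (update (st3 (b :: w) acc [true]) 0 ((st3 (b :: w) acc [true]) 0).tail) 1
          (b :: (update (st3 (b :: w) acc [true]) 0 ((st3 (b :: w) acc [true]) 0).tail) 1)
          = st3 w (b :: acc) [true] := by
        funext j; rcases j with _ | _ | _ | j <;> simp [st3]
      cases b
      · exact Run.ite_false (n := 2) (l := w) rfl
          (((run_pop 0 _).seq (run_push 1 false _)).of_eq e2 le_rfl)
      · exact Run.ite_true (n := 2) (l := w) rfl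
          (((run_pop 0 _).seq (run_push 1 true _)).of_eq e2 le_rfl)
    refine (Run.loop_cons (hne _ _) hb (ih (b :: acc))).of_eq ?_ ?_
    · simp
    · simp only [List.length_cons]; omega
  | case2 w =>
    have hb : Run parseBody (st3 (false :: w) acc [true]) (st3 w acc []) 3 := by
      refine (Run.ite_false (n := 2) (l := w) rfl ((run_pop 0 _).seq (run_pop 2 _))).of_eq
        ?_ (by omega)
      funext j; rcases j with _ | _ | _ | j <;> simp [st3]
    refine (Run.loop_cons (hne _ _) hb (fin w acc)).of_eq ?_ ?_
    · simp
    · simp only [List.length_cons]; omega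
  | case3 =>
    have hb : Run parseBody (st3 [true] acc [true]) (st3 [] acc []) 4 := by
      refine (Run.ite_true (n := 1 + (1 + 1)) (l := []) rfl ((run_pop 0 _).seq ?_)).of_eq
        rfl (by omega)
      refine Run.ite_nil (n := 1) ?_ ((run_pop 2 _).of_eq ?_ le_rfl)
      · simp [st3]
      · funext j; rcases j with _ | _ | _ | j <;> simp [st3]
    refine (Run.loop_cons (hne _ _) hb (fin [] acc)).of_eq ?_ ?_
    · simp
    · simp
  | case4 =>
    have hb : Run parseBody (st3 [] acc [true]) (st3 [] acc []) 2 := by
      refine Run.ite_nil (n := 1) rfl ((run_pop 2 _).of_eq ?_ le_rfl)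
      funext j; rcases j with _ | _ | _ | j <;> simp [st3]
    refine (Run.loop_cons (hne _ _) hb (fin [] acc)).of_eq ?_ ?_
    · simp
    · simp

theorem init_eq_st3 (z : List Bool) : init z = st3 z [] [] := by
  funext j; rcases j with _ | _ | _ | j <;> simp [st3, init]

theorem run_parse (z : List Bool) :
    Run parse (init z) (st3 (snd z) (fst z).reverse []) (6 * z.length + 7) := by
  have e : update (init z) 2 (true :: (init z) 2) = st3 z [] [true] := by
    funext j; rcases j with _ | _ | _ | j <;> simp [st3, init]
  refine (((run_push 2 true (init z)).of_eq e le_rfl).seq (run_parse_loop z [])).of_eq ?_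
    (by omega)
  simp [split_eq]

theorem PT.fst : PT fst := by
  refine ⟨.seq parse (.seq (clear 0) (mv 1 0)), 12 * Polynomial.X + 9, fun z => ?_⟩
  refine ((run_parse z).seq ((run_clear 0 _).seq (run_mv (by decide) _))).of_eq ?_ ?_
  · funext j; rcases j with _ | _ | _ | j <;> simp [st3, init]
  · have h1 := length_fst z
    have h2 := length_snd z
    simp [st3]
    omega

theorem PT.snd : PT snd := by
  refine ⟨.seq parse (clear 1), 8 * Polynomial.X + 8, fun z => ?_⟩
  refine ((run_parse z).seq (run_clear 1 _)).of_eq ?_ ?_
  · funext j; rcases j with _ | _ | _ | j <;> simp [st3, init]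
  · have h1 := length_fst z
    simp [st3]
    omega

/-! ### stores with four stacks -/

/-- explicit small stores -/
def st4 (a b c d : List Bool) : Store := fun k =>
  match k with
  | 0 => a
  | 1 => b
  | 2 => c
  | 3 => d
  | _ + 4 => []

theorem init_eq_st4 (z : List Bool) : init z = st4 z [] [] [] := by
  funext j; rcases j with _ | _ | _ | _ | j <;> simp [st4, init]

@[simp] theorem st4_zero (a b c d : List Bool) : st4 a b c d 0 = a := rfl
@[simp] theorem st4_one (a b c d : List Bool) : st4 a b c d 1 = b := rfl
@[simp] theorem st4_two (a b c d : List Bool) : st4 a b c d 2 = c := rfl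
@[simp] theorem st4_three (a b c d : List Bool) : st4 a b c d 3 = d := rfl

@[simp] theorem update_st4_zero (a b c d v : List Bool) :
    update (st4 a b c d) 0 v = st4 v b c d := by
  funext j; rcases j with _ | _ | _ | _ | j <;> simp [st4]

@[simp] theorem update_st4_one (a b c d v : List Bool) :
    update (st4 a b c d) 1 v = st4 a v c d := by
  funext j; rcases j with _ | _ | _ | _ | j <;> simp [st4]

@[simp] theorem update_st4_two (a b c d v : List Bool) :
    update (st4 a b c d) 2 v = st4 a b v d := by
  funext j; rcases j with _ | _ | _ | _ | j <;> simp [st4]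

@[simp] theorem update_st4_three (a b c d v : List Bool) :
    update (st4 a b c d) 3 v = st4 a b c v := by
  funext j; rcases j with _ | _ | _ | _ | j <;> simp [st4]

/-- duplicate stack `0` onto stack `1` (stacks `1` and `2` empty) -/
def dup : Cmd := .seq (mv2 0 1 2) (.seq (mv 1 0) (mv 2 1))

theorem run_dup (x : List Bool) :
    Run dup (init x) (st4 x x [] []) (13 * x.length + 3) := by
  rw [init_eq_st4]
  refine ((run_mv2 (by decide) (by decide) (by decide) _).seq
    ((run_mv (by decide) _).seq (run_mv (by decide) _))).of_eq ?_ ?_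
  · simp
  · simp; omega

theorem call_one {c : Cmd} {x y : List Bool} {n : ℕ} (h : Run c (init x) (init y) n)
    (a : List Bool) : Run (c.shift 1) (st4 a x [] []) (st4 a y [] []) n := by
  refine (call_run h 1 (st4 a x [] []) rfl ?_).of_eq (by simp) le_rfl
  intro j hj
  rcases j with _ | _ | _ | _ | j
  · omega
  · omega
  all_goals rfl

theorem call_two {c : Cmd} {x y : List Bool} {n : ℕ} (h : Run c (init x) (init y) n)
    (a b : List Bool) : Run (c.shift 2) (st4 a b x []) (st4 a b y []) n := by
  refine (call_run h 2 (st4 a b x []) rfl ?_).of_eq (by simp) le_rfl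
  intro j hj
  rcases j with _ | _ | _ | _ | j
  · omega
  · omega
  · omega
  all_goals rfl

/-- Compute `f` and `g` on stack `0`, leaving the results on the stacks `1` and `2`. -/
def both (c d : Cmd) : Cmd :=
  .seq dup (.seq (c.shift 1) (.seq (mv 0 3) (.seq (mv 3 2) (d.shift 2))))

theorem run_both {c d : Cmd} {x y z : List Bool} {n m : ℕ} (h : Run c (init x) (init y) n)
    (h' : Run d (init x) (init z) m) :
    Run (both c d) (init x) (st4 [] y z []) (n + m + 21 * x.length + 5) := by
  have h1 := run_dup x
  have h2 := call_one h x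
  have h3 : Run (mv 0 3) (st4 x y [] []) (st4 [] y [] x.reverse) (4 * x.length + 1) :=
    (run_mv (by decide) _).of_eq (by simp) (by simp)
  have h4 : Run (mv 3 2) (st4 [] y [] x.reverse) (st4 [] y x []) (4 * x.length + 1) :=
    (run_mv (by decide) _).of_eq (by simp) (by simp)
  have h5 := call_two h' [] y
  refine (h1.seq (h2.seq (h3.seq (h4.seq h5)))).mono (by omega)

theorem PT.pair {f g : List Bool → List Bool} (hf : PT f) (hg : PT g) :
    PT (fun x => pair (f x) (g x)) := by
  obtain ⟨bf, hbf⟩ := hf.length_bound
  obtain ⟨bg, hbg⟩ := hg.length_bound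
  obtain ⟨c, p, hc⟩ := hf
  obtain ⟨d, q, hd⟩ := hg
  refine ⟨.seq (both c d) (.seq (mv 2 3) (.seq (mv 3 0) (.seq (.push 0 false) (.seq (mv 1 3)
    (mvMap 3 0 (fun b => [true, b])))))),
    p + q + 21 * Polynomial.X + 12 * bf + 8 * bg + 10, fun x => ?_⟩
  have h1 := run_both (hc x) (hd x)
  have h2 : Run (mv 2 3) (st4 [] (f x) (g x) []) (st4 [] (f x) [] (g x).reverse)
      (4 * (g x).length + 1) := (run_mv (by decide) _).of_eq (by simp) (by simp)
  have h3 : Run (mv 3 0) (st4 [] (f x) [] (g x).reverse) (st4 (g x) (f x) [] [])
      (4 * (g x).length + 1) := (run_mv (by decide) _).of_eq (by simp) (by simp)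
  have h4 : Run (.push 0 false) (st4 (g x) (f x) [] []) (st4 (false :: g x) (f x) [] []) 1 :=
    (run_push 0 false _).of_eq (by simp) (by simp)
  have h5 : Run (mv 1 3) (st4 (false :: g x) (f x) [] []) (st4 (false :: g x) [] [] (f x).reverse)
      (4 * (f x).length + 1) := (run_mv (by decide) _).of_eq (by simp) (by simp)
  have h6 : Run (mvMap 3 0 (fun b => [true, b])) (st4 (false :: g x) [] [] (f x).reverse)
      (init (Crest.Agent.Lib.PT.pair (f x) (g x))) (8 * (f x).length + 1) := by
    refine (run_mvMap (by decide) _ _).of_eq ?_ (by simp)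
    rw [init_eq_st4]
    simp [Crest.Agent.Lib.PT.pair]
  refine (h1.seq (h2.seq (h3.seq (h4.seq (h5.seq h6))))).mono ?_
  have b1 := hbf x
  have b2 := hbg x
  simp only [Polynomial.eval_add, Polynomial.eval_mul, Polynomial.eval_ofNat, Polynomial.eval_X]
  omega

theorem PT.core_append' : PT (fun z => Crest.Agent.Lib.PT.fst z ++ Crest.Agent.Lib.PT.snd z) := by
  refine ⟨.seq parse (mv 1 0), 10 * Polynomial.X + 8, fun z => ?_⟩
  refine ((run_parse z).seq (run_mv (by decide) _)).of_eq ?_ ?_
  · funext j; rcases j with _ | _ | _ | j <;> simp [st3, init]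
  · have h1 := length_fst z
    simp [st3]
    omega

theorem PT.append {f g : List Bool → List Bool} (hf : PT f) (hg : PT g) :
    PT (fun x => f x ++ g x) :=
  (PT.core_append'.comp (hf.pair hg)).congr fun x => by
    rw [core_fst_pair, core_snd_pair]

theorem PT.ite {c f g : List Bool → List Bool} (hc : PT c) (hf : PT f) (hg : PT g) :
    PT (fun x => if (c x).head? = some true then f x else g x) := by
  obtain ⟨bc, hbc⟩ := hc.length_bound
  obtain ⟨cc, r, hcc⟩ := hc
  obtain ⟨cf, p, hcf⟩ := hf
  obtain ⟨cg, q, hcg⟩ := hg
  refine ⟨.seq dup (.seq (cc.shift 1) (.ite 1 cg (.seq (clear 1) cf) (.seq (clear 1) cg))),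
    r + p + q + 13 * Polynomial.X + 2 * bc + 5, fun x => ?_⟩
  have h1 := run_dup x
  have h2 := call_one (hcc x) x
  have b1 := hbc x
  have h3 : Run (.ite 1 cg (.seq (clear 1) cf) (.seq (clear 1) cg)) (st4 x (c x) [] [])
      (init (if (c x).head? = some true then f x else g x))
      (2 + 2 * bc.eval x.length + p.eval x.length + q.eval x.length) := by
    have hcl : Run (clear 1) (st4 x (c x) [] []) (init x) (2 * (c x).length + 1) :=
      (run_clear 1 _).of_eq (by simp [init_eq_st4]) (by simp)
    rcases hcx : c x with _ | ⟨b, l⟩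
    · have := hcg x
      rw [init_eq_st4 x] at this
      simpa using (Run.ite_nil (k := 1) (e := cg) (c := .seq (clear 1) cf)
        (d := .seq (clear 1) cg) (s := st4 x [] [] []) rfl this).mono (by omega)
    · rw [hcx] at hcl b1
      cases b
      · simpa using (Run.ite_false (k := 1) (e := cg) (c := .seq (clear 1) cf)
          (d := .seq (clear 1) cg) (s := st4 x (false :: l) [] []) (l := l) rfl
          (hcl.seq (hcg x))).mono (by omega)
      · simpa using (Run.ite_true (k := 1) (e := cg) (c := .seq (clear 1) cf)
          (d := .seq (clear 1) cg) (s := st4 x (true :: l) [] []) (l := l) rfl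
          (hcl.seq (hcf x))).mono (by omega)
  refine (h1.seq (h2.seq h3)).mono ?_
  simp only [Polynomial.eval_add, Polynomial.eval_mul, Polynomial.eval_ofNat, Polynomial.eval_X]
  omega

/-! ### bounded iteration -/

theorem run_iter_loop {c : Cmd} {f : List Bool → List Bool} {n : ℕ} (u y : List Bool)
    (h : ∀ i < u.length, Run c (init (f^[i] y)) (init (f (f^[i] y))) n) :
    Run (.loop 0 (.seq (.pop 0) (c.shift 1))) (st4 u y [] []) (st4 [] (f^[u.length] y) [] [])
      (u.length * (n + 2) + 1) := by
  induction u generalizing y with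
  | nil =>
    exact (Run.loop_nil (k := 0) (c := .seq (.pop 0) (c.shift 1))
      (s := st4 [] y [] []) rfl).of_eq (by simp) (by simp)
  | cons b u ih =>
    have h1 : Run (.pop 0) (st4 (b :: u) y [] []) (st4 u y [] []) 1 :=
      (run_pop 0 _).of_eq (by simp) le_rfl
    have h2 : Run (c.shift 1) (st4 u y [] []) (st4 u (f y) [] []) n :=
      call_one (h 0 (by simp)) u
    have h3 := ih (f y) (fun i hi => by
      have := h (i + 1) (by simpa using hi)
      simpa only [iterate_succ, comp_apply] using this)
    refine (Run.loop_cons (k := 0) (by simp) (h1.seq h2) h3).of_eq (by simp) ?_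
    simp only [List.length_cons]
    ring_nf
    omega

/-- Bounded iteration: `u` supplies the number of rounds, `s` the start value. -/
theorem PT.iter' {f u s : List Bool → List Bool} (hf : PT f) (hu : PT u) (hs : PT s)
    (hb : ∃ p : Polynomial ℕ, ∀ x, ∀ i ≤ (u x).length, (f^[i] (s x)).length ≤ p.eval x.length) :
    PT (fun x => f^[(u x).length] (s x)) := by
  obtain ⟨B, hB⟩ := hb
  obtain ⟨bu, hbu⟩ := hu.length_bound
  obtain ⟨cf, p, hcf⟩ := hf
  obtain ⟨cu, q, hcu⟩ := hu
  obtain ⟨cs, r, hcs⟩ := hs
  refine ⟨.seq (both cu cs) (.seq (mv 1 0) (.seq (mv 2 3) (.seq (mv 3 1)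
    (.seq (.loop 0 (.seq (.pop 0) (cf.shift 1))) (.seq (mv 1 2) (mv 2 0)))))),
    q + r + 21 * Polynomial.X + 4 * bu + bu * (p.comp B + 2) + 16 * B + 11, fun x => ?_⟩
  have h1 := run_both (hcu x) (hcs x)
  have h2 : Run (mv 1 0) (st4 [] (u x) (s x) []) (st4 (u x).reverse [] (s x) [])
      (4 * (u x).length + 1) := (run_mv (by decide) _).of_eq (by simp) (by simp)
  have h3 : Run (mv 2 3) (st4 (u x).reverse [] (s x) [])
      (st4 (u x).reverse [] [] (s x).reverse) (4 * (s x).length + 1) :=
    (run_mv (by decide) _).of_eq (by simp) (by simp)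
  have h4 : Run (mv 3 1) (st4 (u x).reverse [] [] (s x).reverse)
      (st4 (u x).reverse (s x) [] []) (4 * (s x).length + 1) :=
    (run_mv (by decide) _).of_eq (by simp) (by simp)
  have h5 : Run (.loop 0 (.seq (.pop 0) (cf.shift 1))) (st4 (u x).reverse (s x) [] [])
      (st4 [] (f^[(u x).length] (s x)) [] [])
      ((u x).length * (p.eval (B.eval x.length) + 2) + 1) := by
    have := run_iter_loop (c := cf) (f := f) (n := p.eval (B.eval x.length)) (u x).reverse (s x)
      (fun i hi => (hcf _).mono (polyEval_mono p (hB x i (by simpa using hi.le))))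
    simpa using this
  have h6 : Run (mv 1 2) (st4 [] (f^[(u x).length] (s x)) [] [])
      (st4 [] [] (f^[(u x).length] (s x)).reverse [])
      (4 * (f^[(u x).length] (s x)).length + 1) :=
    (run_mv (by decide) _).of_eq (by simp) (by simp)
  have h7 : Run (mv 2 0) (st4 [] [] (f^[(u x).length] (s x)).reverse [])
      (init (f^[(u x).length] (s x)))
      (4 * (f^[(u x).length] (s x)).length + 1) :=
    (run_mv (by decide) _).of_eq (by simp [init_eq_st4]) (by simp)
  refine (h1.seq (h2.seq (h3.seq (h4.seq (h5.seq (h6.seq h7)))))).mono ?_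
  have b1 := hbu x
  have b2 := hB x 0 (by simp)
  have b3 := hB x (u x).length le_rfl
  have b4 : (u x).length * (p.eval (B.eval x.length) + 2) ≤
      bu.eval x.length * (p.eval (B.eval x.length) + 2) := Nat.mul_le_mul_right _ b1
  simp only [iterate_zero, id_eq] at b2
  simp only [Polynomial.eval_add, Polynomial.eval_mul, Polynomial.eval_ofNat, Polynomial.eval_X,
    Polynomial.eval_comp]
  omega

theorem PT.iter {f : List Bool → List Bool} (hf : PT f)
    (hb : ∃ p : Polynomial ℕ, ∀ x n, ∀ i ≤ n, (f^[i] x).length ≤ p.eval (x.length + n)) :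
    PT (fun z => f^[(Crest.Agent.Lib.PT.fst z).length] (Crest.Agent.Lib.PT.snd z)) := by
  obtain ⟨p, hp⟩ := hb
  refine PT.iter' hf PT.fst PT.snd ⟨p, fun z i hi => (hp _ _ i hi).trans (polyEval_mono p ?_)⟩
  have := length_split z
  simp only [split_eq] at this
  omega

/-! ### clocks -/

/-- multiplication of lengths -/
theorem PT.core_mulLen {f g : List Bool → List Bool} (hf : PT f) (hg : PT g) :
    PT (fun x => List.replicate ((f x).length * (g x).length) true) := by
  have hstep : PT (fun z => Crest.Agent.Lib.PT.pair (Crest.Agent.Lib.PT.fst z)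
      (Crest.Agent.Lib.PT.fst z ++ Crest.Agent.Lib.PT.snd z)) :=
    PT.fst.pair (PT.append PT.fst PT.snd)
  have hg1 : PT (fun x => (g x).flatMap (fun _ => [true])) := (PT.flatMap (fun _ => [true])).comp hg
  have hs : PT (fun x => Crest.Agent.Lib.PT.pair ((g x).flatMap (fun _ => [true])) []) :=
    hg1.pair (PT.const [])
  have hfm : ∀ l : List Bool, l.flatMap (fun _ => [true]) = List.replicate l.length true := by
    intro l
    induction l with
    | nil => rfl
    | cons b l ih => simp [ih, List.replicate_succ]
  have key : ∀ (v : List Bool) (i m : ℕ), v = List.replicate v.length true →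
      (fun z => Crest.Agent.Lib.PT.pair (Crest.Agent.Lib.PT.fst z)
      (Crest.Agent.Lib.PT.fst z ++ Crest.Agent.Lib.PT.snd z))^[i]
        (Crest.Agent.Lib.PT.pair v (List.replicate m true)) =
      Crest.Agent.Lib.PT.pair v (List.replicate (i * v.length + m) true) := by
    intro v i m hv
    induction i generalizing m with
    | zero => simp
    | succ i ih =>
      rw [iterate_succ, comp_apply]
      simp only [core_fst_pair, core_snd_pair]
      have : v ++ List.replicate m true = List.replicate (v.length + m) true := by
        conv_lhs => rw [hv]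
        rw [List.replicate_append_replicate]
      rw [this, ih]
      congr 2
      ring
  obtain ⟨bf, hbf⟩ := hf.length_bound
  obtain ⟨bg, hbg⟩ := hg.length_bound
  have hit := PT.iter' hstep hf hs ⟨3 * bg + bf * bg + 1, fun x i hi => by
    have hv : (g x).flatMap (fun _ => [true]) =
        List.replicate ((g x).flatMap (fun _ => [true])).length true := by
      rw [hfm]; simp
    have := key _ i 0 hv
    simp only [List.replicate_zero] at this
    rw [this]
    simp only [core_length_pair, List.length_replicate, hfm, Polynomial.eval_add, Polynomial.eval_mul,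
      Polynomial.eval_ofNat, Polynomial.eval_one, add_zero]
    have b1 := hbf x
    have b2 := hbg x
    have b3 : i * (g x).length ≤ bf.eval x.length * bg.eval x.length :=
      Nat.mul_le_mul (hi.trans b1) b2
    omega⟩
  refine (PT.snd.comp hit).congr fun x => ?_
  have hv : (g x).flatMap (fun _ => [true]) =
      List.replicate ((g x).flatMap (fun _ => [true])).length true := by
    rw [hfm]; simp
  have := key _ (f x).length 0 hv
  simp only [List.replicate_zero] at this
  rw [this]
  simp [hfm, core_snd_pair]

/-- `x ↦ 1^{p(|x|)}` -/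
theorem PT.clock (p : Polynomial ℕ) : PT (fun x => List.replicate (p.eval x.length) true) := by
  induction p using Polynomial.induction_on with
  | C a => simpa using PT.const (List.replicate a true)
  | add p q hp hq =>
    refine (hp.append hq).congr fun x => ?_
    rw [List.replicate_append_replicate, Polynomial.eval_add]
  | monomial n a h =>
    refine (h.core_mulLen PT.id).congr fun x => ?_
    simp [pow_succ, mul_assoc]

end Crest.Agent.Lib.PT
private theorem rz_dda3efffd9 : type_of% @_root_.Crest.Agent.Lib.PT.fst.eq_def := @_root_.Crest.Agent.Lib.PT.fst.eq_def -- L441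
private theorem rz_96d3508d8a : type_of% @_root_.Crest.Agent.Lib.PT.fst.eq_1 := @_root_.Crest.Agent.Lib.PT.fst.eq_1 -- L441
private theorem rz_ca35d4372b : type_of% @_root_.Crest.Agent.Lib.PT.fst.induct := @_root_.Crest.Agent.Lib.PT.fst.induct -- L441
private theorem rz_b42cc29f7e : type_of% @_root_.Crest.Agent.Lib.PT.pushAll.eq_def := @_root_.Crest.Agent.Lib.PT.pushAll.eq_def -- L211
private theorem rz_3907234076 : type_of% @_root_.Crest.Agent.Lib.PT.pushAll.eq_1 := @_root_.Crest.Agent.Lib.PT.pushAll.eq_1 -- L211
private theorem rz_3485a58694 : type_of% @_root_.Crest.Agent.Lib.PT.snd.eq_def := @_root_.Crest.Agent.Lib.PT.snd.eq_def -- L446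
private theorem rz_fca5f32c95 : type_of% @_root_.Crest.Agent.Lib.PT.snd.eq_1 := @_root_.Crest.Agent.Lib.PT.snd.eq_1 -- L446
private theorem rz_ead022a5b9 : type_of% @_root_.Crest.Agent.Lib.PT.split.eq_def := @_root_.Crest.Agent.Lib.PT.split.eq_def -- L452
private theorem rz_b5ca522fd3 : type_of% @_root_.Crest.Agent.Lib.PT.split.eq_1 := @_root_.Crest.Agent.Lib.PT.split.eq_1 -- L452
private theorem rz_c46480c8c2 : type_of% @_root_.Crest.Agent.Lib.PT.split.induct_unfolding := @_root_.Crest.Agent.Lib.PT.split.induct_unfolding -- L452
private theorem rz_0768cd5a87 : type_of% @_root_.Crest.Agent.Lib.PT.st3.eq_1 := @_root_.Crest.Agent.Lib.PT.st3.eq_1 -- L515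
private theorem rz_b3d8434413 : type_of% @_root_.Crest.Agent.Lib.PT.st4.eq_1 := @_root_.Crest.Agent.Lib.PT.st4.eq_1 -- L606
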