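import Crest.Agent.Lib.PT.ListFns2

/-!
# The converse: every polynomial-time `Turing.FinTM2` computation is `PTF` / `PT`

* `PTF.of_polyTimeComputable`: from `Crest.Complexity.PolyTimeComputable ea eb f` (coded alphabets)
  a poly-time `g : List Γα → List Γβ` with `g (ea a) = eb (f a)`.
* `PT.of_polyTime`, `polyTime_iff`, `ptf_of_polyTimePred`, `ptf_of_polyTimePred₂`.
-/

set_option autoImplicit false
set_option linter.dupNamespace false

namespace Crest.Agent.Lib.PT

open Turing Function

namespace OfTM

section sim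

variable {K : Type} [DecidableEq K] {Γ : K → Type} {Λ σ A : Type}
variable (pos : K → ℕ) (code : ∀ k, Γ k → A) (dec : ∀ k, A → Option (Γ k))

/-- every pushed symbol is correctly coded -/
def Good : TM2.Stmt Γ Λ σ → Prop
  | .push k f q => (∀ v, dec k (code k (f v)) = some (f v)) ∧ Good q
  | .peek _ _ q => Good q
  | .pop _ _ q => Good q
  | .load _ q => Good q
  | .branch _ q₁ q₂ => Good q₁ ∧ Good q₂
  | .goto _ => True
  | .halt => True

/-- simulation of one statement on the list of coded stacks -/
def simAux : TM2.Stmt Γ Λ σ → σ → List (List A) → Option Λ × σ × List (List A)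
  | .push k f q, v, T => simAux q v (T.set (pos k) (code k (f v) :: T.getD (pos k) []))
  | .peek k f q, v, T => simAux q (f v ((T.getD (pos k) []).head?.bind (dec k))) T
  | .pop k f q, v, T => simAux q (f v ((T.getD (pos k) []).head?.bind (dec k)))
      (T.set (pos k) (T.getD (pos k) []).tail)
  | .load a q, v, T => simAux q (a v) T
  | .branch p q₁ q₂, v, T => bif p v then simAux q₁ v T else simAux q₂ v T
  | .goto l, v, T => (some (l v), v, T)
  | .halt, v, T => (none, v, T)

/-- the coded stacks `T` represent `S` -/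
structure Rel (n : ℕ) (S : ∀ k, List (Γ k)) (T : List (List A)) : Prop where
  len : T.length = n
  eq : ∀ k, (T.getD (pos k) []).map (dec k) = (S k).map some

variable {pos} {code} {dec} {n : ℕ}

omit [DecidableEq K] in
theorem Rel.head {S : ∀ k, List (Γ k)} {T : List (List A)} (h : Rel pos dec n S T) (k : K) :
    (T.getD (pos k) []).head?.bind (dec k) = (S k).head? := by
  have := h.eq k
  rcases hT : T.getD (pos k) [] with _ | ⟨a, l⟩ <;> rcases hS : S k with _ | ⟨b, l'⟩
  · rfl
  · rw [hT, hS] at this; simp at this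
  · rw [hT, hS] at this; simp at this
  · rw [hT, hS] at this; simp at this; simpa using this.1

theorem Rel.update {S : ∀ k, List (Γ k)} {T : List (List A)} (h : Rel pos dec n S T)
    (hpos : Injective pos) (hlt : ∀ k, pos k < n) (k : K) (l : List A) (l' : List (Γ k))
    (hl : l.map (dec k) = l'.map some) :
    Rel pos dec n (update S k l') (T.set (pos k) l) := by
  refine ⟨by simp [h.len], fun j => ?_⟩
  by_cases hj : j = k
  · subst hj
    have : pos j < T.length := by rw [h.len]; exact hlt j
    rw [update_self, List.getD_eq_getElem?_getD, List.getElem?_set_self this]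
    simpa using hl
  · have h1 : pos k ≠ pos j := fun e => hj (hpos e).symm
    rw [update_of_ne hj, List.getD_eq_getElem?_getD, List.getElem?_set_ne h1,
      ← List.getD_eq_getElem?_getD]
    exact h.eq j

theorem Rel.stepAux (hpos : Injective pos) (hlt : ∀ k, pos k < n) (q : TM2.Stmt Γ Λ σ)
    (hq : Good code dec q) (v : σ) {S : ∀ k, List (Γ k)} {T : List (List A)}
    (h : Rel pos dec n S T) :
    (simAux pos code dec q v T).1 = (TM2.stepAux q v S).l ∧
    (simAux pos code dec q v T).2.1 = (TM2.stepAux q v S).var ∧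
    Rel pos dec n (TM2.stepAux q v S).stk (simAux pos code dec q v T).2.2 := by
  induction q generalizing v S T with
  | push k f q ih =>
    simp only [simAux, TM2.stepAux]
    refine ih hq.2 _ (h.update hpos hlt k _ _ ?_)
    simp only [List.map_cons, hq.1 v, h.eq k]
  | peek k f q ih =>
    simp only [simAux, TM2.stepAux, h.head k]
    exact ih hq _ h
  | pop k f q ih =>
    simp only [simAux, TM2.stepAux, h.head k]
    refine ih hq _ (h.update hpos hlt k _ _ ?_)
    rw [List.map_tail, List.map_tail, h.eq k]
  | load a q ih =>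
    simp only [simAux, TM2.stepAux]
    exact ih hq _ h
  | branch p q₁ q₂ ih₁ ih₂ =>
    simp only [simAux, TM2.stepAux]
    cases p v
    · exact ih₂ hq.2 _ h
    · exact ih₁ hq.1 _ h
  | goto l => exact ⟨rfl, rfl, h⟩
  | halt => exact ⟨rfl, rfl, h⟩

variable (pos code dec)

/-- one step of the simulation; halted configurations stay fixed -/
def simStep (m : Λ → TM2.Stmt Γ Λ σ) (s : Option Λ × σ × List (List A)) :
    Option Λ × σ × List (List A) :=
  match s with
  | (none, p) => (none, p)
  | (some l, p) => simAux pos code dec (m l) p.1 p.2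

/-- `s` represents the configuration `c` -/
structure CRel (n : ℕ) (c : TM2.Cfg Γ Λ σ) (s : Option Λ × σ × List (List A)) : Prop where
  l : s.1 = c.l
  var : s.2.1 = c.var
  stk : Rel pos dec n c.stk s.2.2

variable {pos code dec}

theorem CRel.iterate (hpos : Injective pos) (hlt : ∀ k, pos k < n) (m : Λ → TM2.Stmt Γ Λ σ)
    (hm : ∀ l, Good code dec (m l)) {c₀ : TM2.Cfg Γ Λ σ} {s₀ : Option Λ × σ × List (List A)}
    (h₀ : CRel pos dec n c₀ s₀) (i : ℕ) :
    ∀ c, (flip bind (TM2.step m))^[i] (some c₀) = some c →
      CRel pos dec n c ((simStep pos code dec m)^[i] s₀) := by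
  induction i with
  | zero =>
    intro c hc
    simp only [iterate_zero, id_eq, Option.some.injEq] at hc
    subst hc
    exact h₀
  | succ i ih =>
    intro c hc
    rw [iterate_succ_apply'] at hc
    rw [iterate_succ_apply']
    rcases hc' : (flip bind (TM2.step m))^[i] (some c₀) with _ | c'
    · rw [hc'] at hc; simp [flip] at hc
    · rw [hc'] at hc
      have h1 := ih c' hc'
      generalize (simStep pos code dec m)^[i] s₀ = s at h1
      rcases s with ⟨l, v, T⟩
      rcases c' with ⟨l', v', S⟩
      obtain ⟨e1, e2, e3⟩ := h1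
      simp only at e1 e2 e3
      subst e1 e2
      have h2 : TM2.step m ⟨l, v, S⟩ = some c := hc
      rcases l with _ | l
      · simp [TM2.step] at h2
      · simp only [TM2.step, Option.some.injEq] at h2
        subst h2
        obtain ⟨a1, a2, a3⟩ := Rel.stepAux hpos hlt (m l) (hm l) v e3
        exact ⟨a1, a2, a3⟩

omit [DecidableEq K] in
theorem simStep_fixed (m : Λ → TM2.Stmt Γ Λ σ) (s : Option Λ × σ × List (List A))
    (hs : s.1 = none) (i : ℕ) : (simStep pos code dec m)^[i] s = s := by
  have : simStep pos code dec m s = s := by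
    rcases s with ⟨_ | l, p⟩
    · rfl
    · simp at hs
  exact iterate_fixed this i

end sim

section ptf

variable {K : Type} [DecidableEq K] {Γ : K → Type} {Λ σ A : Type}
variable (pos : K → ℕ) (code : ∀ k, Γ k → A) (dec : ∀ k, A → Option (Γ k))
variable [PTCode Λ] [PTCode σ] [PTCode A] [Finite Λ] [Finite σ] [Finite A]

omit [DecidableEq K] [Finite Λ] in
theorem ptf_simAux (q : TM2.Stmt Γ Λ σ) :
    PTF (fun p : σ × List (List A) => simAux pos code dec q p.1 p.2) := by
  have hget : ∀ k : K, PTF (fun p : σ × List (List A) => p.2.getD (pos k) []) := fun k =>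
    PTF.getD (PTU.const _) PTF.snd (PTF.const _)
  have hhead : ∀ (k : K) (f : σ → Option (Γ k) → σ), PTF (fun p : σ × List (List A) =>
      f p.1 ((p.2.getD (pos k) []).head?.bind (dec k))) := fun k f =>
    PTF.comp (g := fun r : σ × Option A => f r.1 (r.2.bind (dec k)))
      (PTF.of_finite _) (PTF.prodMk PTF.fst (PTF.head? (hget k)))
  induction q with
  | push k f q ih =>
    exact PTF.comp (f := fun p : σ × List (List A) =>
      (p.1, p.2.set (pos k) (code k (f p.1) :: p.2.getD (pos k) []))) ih
      (PTF.prodMk PTF.fst (PTF.set PTF.snd (PTU.const _) (PTF.listCons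
        (PTF.comp (g := fun v : σ => code k (f v)) (PTF.of_finite _) PTF.fst) (hget k))))
  | peek k f q ih =>
    exact PTF.comp (f := fun p : σ × List (List A) =>
      (f p.1 ((p.2.getD (pos k) []).head?.bind (dec k)), p.2)) ih
      (PTF.prodMk (hhead k f) PTF.snd)
  | pop k f q ih =>
    exact PTF.comp (f := fun p : σ × List (List A) =>
      (f p.1 ((p.2.getD (pos k) []).head?.bind (dec k)),
        p.2.set (pos k) (p.2.getD (pos k) []).tail)) ih
      (PTF.prodMk (hhead k f) (PTF.set PTF.snd (PTU.const _) (PTF.tail (hget k))))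
  | load a q ih =>
    exact PTF.comp (f := fun p : σ × List (List A) => (a p.1, p.2)) ih
      (PTF.prodMk (PTF.comp (g := a) (PTF.of_finite _) PTF.fst) PTF.snd)
  | branch p q₁ q₂ ih₁ ih₂ =>
    exact PTF.cond (PTF.comp (g := p) (PTF.of_finite _) PTF.fst) ih₁ ih₂
  | goto l =>
    exact PTF.prodMk (PTF.comp (g := fun v => some (l v)) (PTF.of_finite _) PTF.fst) PTF.id
  | halt => exact PTF.prodMk (PTF.const _) PTF.id

omit [DecidableEq K] in
theorem ptf_simStep (m : Λ → TM2.Stmt Γ Λ σ) : PTF (simStep pos code dec m) := by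
  have h : ∀ o : Option Λ, PTF (fun p : σ × List (List A) =>
      simStep pos code dec m (o, p)) := by
    rintro (_ | l)
    · exact PTF.prodMk (PTF.const _) PTF.id
    · exact ptf_simAux pos code dec (m l)
  exact PTF.finite_cases (f := fun (o : Option Λ) (p : σ × List (List A)) =>
    simStep pos code dec m (o, p)) h

/-- a bound on the sizes of the codes of a finite type -/
theorem exists_sz_le (α : Type) [PTCode α] [Finite α] : ∃ M, ∀ a : α, sz a ≤ M := by
  classical
  have := Fintype.ofFinite α
  refine ⟨∑ a : α, sz a, fun a => ?_⟩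
  exact Finset.single_le_sum (f := fun a : α => sz a) (fun _ _ => Nat.zero_le _)
    (Finset.mem_univ a)

theorem sz_set {α : Type} [PTCode α] (T : List (List α)) (i : ℕ) (l : List α) :
    sz (T.set i l) + 2 * sz (T.getD i []) ≤ sz T + 2 * sz l := by
  induction T generalizing i with
  | nil => simp
  | cons a T ih =>
    cases i with
    | zero => simp; omega
    | succ i =>
      have := ih i
      simp only [List.set_cons_succ, sz_cons, List.getD_cons_succ] at this ⊢
      omega

omit [DecidableEq K] [PTCode Λ] [PTCode σ] [Finite Λ] [Finite σ] in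
theorem sz_simAux (q : TM2.Stmt Γ Λ σ) :
    ∃ C, ∀ v T, sz (simAux pos code dec q v T).2.2 ≤ sz T + C := by
  obtain ⟨M, hM⟩ := exists_sz_le A
  induction q with
  | push k f q ih =>
    obtain ⟨C, hC⟩ := ih
    refine ⟨C + 2 * (2 * M + 1), fun v T => (hC _ _).trans ?_⟩
    have h1 := sz_set T (pos k) (code k (f v) :: T.getD (pos k) [])
    have h2 := hM (code k (f v))
    simp only [sz_cons] at h1
    omega
  | peek k f q ih =>
    obtain ⟨C, hC⟩ := ih
    exact ⟨C, fun v T => hC _ _⟩
  | pop k f q ih =>
    obtain ⟨C, hC⟩ := ih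
    refine ⟨C, fun v T => (hC _ _).trans ?_⟩
    have h1 := sz_set T (pos k) (T.getD (pos k) []).tail
    have h2 := sz_tail_le (T.getD (pos k) [])
    omega
  | load a q ih =>
    obtain ⟨C, hC⟩ := ih
    exact ⟨C, fun v T => hC _ _⟩
  | branch p q₁ q₂ ih₁ ih₂ =>
    obtain ⟨C₁, hC₁⟩ := ih₁
    obtain ⟨C₂, hC₂⟩ := ih₂
    refine ⟨C₁ + C₂, fun v T => ?_⟩
    simp only [simAux]
    have h1 := hC₁ v T
    have h2 := hC₂ v T
    cases p v
    · simp only [cond_false]; omega
    · simp only [cond_true]; omega
  | goto l => exact ⟨0, fun v T => le_rfl⟩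
  | halt => exact ⟨0, fun v T => le_rfl⟩

omit [DecidableEq K] in
theorem sz_simStep (m : Λ → TM2.Stmt Γ Λ σ) :
    ∃ C, ∀ s, sz (simStep pos code dec m s) ≤ sz s + C := by
  choose C hC using fun l => sz_simAux pos code dec (m l)
  obtain ⟨M₁, hM₁⟩ := exists_sz_le (Option Λ)
  obtain ⟨M₂, hM₂⟩ := exists_sz_le σ
  have := Fintype.ofFinite Λ
  refine ⟨2 * M₁ + 1 + 2 * M₂ + 1 + ∑ l, C l, ?_⟩
  rintro ⟨_ | l, v, T⟩
  · simp only [simStep]; omega
  · have h1 := hC l v T
    have h2 := hM₁ (simAux pos code dec (m l) v T).1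
    have h3 := hM₂ (simAux pos code dec (m l) v T).2.1
    have h4 : C l ≤ ∑ l, C l :=
      Finset.single_le_sum (f := C) (fun _ _ => Nat.zero_le _) (Finset.mem_univ l)
    simp only [simStep, sz_prod]
    omega

end ptf

section codes

variable {K : Type} {Γ : K → Type} {Λ σ : Type}

/-- the symbols pushed by a statement -/
def pushed : TM2.Stmt Γ Λ σ → Set (Σ k, Γ k)
  | .push k f q => Set.range (fun v => ⟨k, f v⟩) ∪ pushed q
  | .peek _ _ q => pushed q
  | .pop _ _ q => pushed q
  | .load _ q => pushed q
  | .branch _ q₁ q₂ => pushed q₁ ∪ pushed q₂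
  | .goto _ => ∅
  | .halt => ∅

theorem finite_pushed [Finite σ] (q : TM2.Stmt Γ Λ σ) : (pushed q).Finite := by
  induction q with
  | push k f q ih => exact (Set.finite_range _).union ih
  | peek k f q ih => exact ih
  | pop k f q ih => exact ih
  | load a q ih => exact ih
  | branch p q₁ q₂ ih₁ ih₂ => exact ih₁.union ih₂
  | goto l => exact Set.finite_empty
  | halt => exact Set.finite_empty

variable (F : Set (Σ k, Γ k))

open Classical in
/-- coding of symbols -/
noncomputable def sym (k : K) (g : Γ k) : Option F :=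
  if h : (⟨k, g⟩ : Σ k, Γ k) ∈ F then some ⟨⟨k, g⟩, h⟩ else none

open Classical in
/-- decoding of symbols -/
noncomputable def unsym (k : K) (a : Option F) : Option (Γ k) :=
  a.bind (fun a => if h : a.1.1 = k then some (h ▸ a.1.2) else none)

theorem unsym_sym {F : Set (Σ k, Γ k)} {k : K} {g : Γ k} (h : (⟨k, g⟩ : Σ k, Γ k) ∈ F) :
    unsym F k (sym F k g) = some g := by
  simp [unsym, sym, h]

theorem good_of_pushed {F : Set (Σ k, Γ k)} (q : TM2.Stmt Γ Λ σ) (h : pushed q ⊆ F) :
    Good (sym F) (unsym F) q := by
  induction q with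
  | push k f q ih =>
    exact ⟨fun v => unsym_sym (h (Or.inl ⟨v, rfl⟩)), ih (fun x hx => h (Or.inr hx))⟩
  | peek k f q ih => exact ih h
  | pop k f q ih => exact ih h
  | load a q ih => exact ih h
  | branch p q₁ q₂ ih₁ ih₂ =>
    exact ⟨ih₁ (fun x hx => h (Or.inl hx)), ih₂ (fun x hx => h (Or.inr hx))⟩
  | goto l => exact trivial
  | halt => exact trivial

end codes

/-- some code for a finite type -/
@[reducible] noncomputable def codeOfFinite (α : Type) [Finite α] : PTCode α :=
  PTCode.ofInj (Finite.equivFin α) (Finite.equivFin α).injective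

end OfTM

open OfTM

/-- The converse: a polynomial-time machine computation is a poly-time function on coded lists. -/
protected theorem PTF.of_polyTimeComputable {α β Γα Γβ : Type} [PTCode Γα] [PTCode Γβ]
    {ea : α → List Γα} {eb : β → List Γβ} {f : α → β}
    (h : Crest.Complexity.PolyTimeComputable ea eb f) :
    ∃ g : List Γα → List Γβ, PTF g ∧ ∀ a, g (ea a) = eb (f a) := by
  classical
  obtain ⟨M⟩ := h
  obtain ⟨⟨tm, inA, outA⟩, time, outs⟩ := M
  let _ := tm.kFin
  let _ := tm.ΛFin
  let _ := tm.σFin
  let _ := tm.Γk₀Fin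
  -- the relevant symbols
  let F : Set (Σ k, tm.Γ k) := (⋃ l, pushed (tm.m l)) ∪ Set.range (fun g : tm.Γ tm.k₀ => ⟨tm.k₀, g⟩)
  have hF : F.Finite := (Set.finite_iUnion (fun l => finite_pushed (tm.m l))).union
    (Set.finite_range _)
  have : Finite F := hF.to_subtype
  let _ := codeOfFinite tm.Λ
  let _ := codeOfFinite tm.σ
  let _ := codeOfFinite F
  let n := Nat.card tm.K
  let pos : tm.K → ℕ := fun k => (Finite.equivFin tm.K k : ℕ)
  have hpos : Injective pos := fun a b hab =>
    (Finite.equivFin tm.K).injective (Fin.ext hab)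
  have hlt : ∀ k, pos k < n := fun k => (Finite.equivFin tm.K k).2
  have hgood : ∀ l, Good (sym F) (unsym F) (tm.m l) := fun l =>
    good_of_pushed _ (fun x hx => Or.inl (Set.mem_iUnion.2 ⟨l, hx⟩))
  -- initial stacks
  let T₀ : List Γα → List (List (Option F)) := fun x =>
    (List.replicate n []).set (pos tm.k₀) (x.map (fun b => sym F tm.k₀ (inA.symm b)))
  have : Finite Γα := Finite.of_equiv _ inA
  have hT₀ : PTF T₀ := by
    refine PTF.set (PTF.const _) (PTU.const _) (PTF.map (f := fun (_ : List Γα) b =>
      sym F tm.k₀ (inA.symm b)) PTF.id ?_)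
    exact PTF.comp (g := fun b : Γα => sym F tm.k₀ (inA.symm b)) (PTF.of_finite _) PTF.snd
  let s₀ : List Γα → Option tm.Λ × tm.σ × List (List (Option F)) := fun x =>
    (some tm.main, tm.initialState, T₀ x)
  have hs₀ : PTF s₀ := PTF.prodMk (PTF.const _) (PTF.prodMk (PTF.const _) hT₀)
  -- the run
  obtain ⟨C, hC⟩ := sz_simStep pos (sym F) (unsym F) tm.m
  have hrun : PTF (fun x : List Γα => (simStep pos (sym F) (unsym F) tm.m)^[time.eval x.length]
      (s₀ x)) := by
    refine PTF.iterate_add (f := fun (_ : List Γα) s => simStep pos (sym F) (unsym F) tm.m s)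
      (PTU.eval time (PTU.length PTF.id)) ?_ hs₀ (PB.const C) (fun _ s => hC s)
    exact PTF.comp (ptf_simStep pos (sym F) (unsym F) tm.m) PTF.snd
  -- the output
  let out : Option tm.Λ × tm.σ × List (List (Option F)) → List Γβ := fun s =>
    (s.2.2.getD (pos tm.k₁) []).filterMap (fun a => (unsym F tm.k₁ a).map outA)
  have hout : PTF out := by
    refine PTF.filterMap (f := fun _ a => (unsym F tm.k₁ a).map outA)
      (PTF.getD (PTU.const _) (PTF.comp PTF.snd PTF.snd) (PTF.const _)) ?_
    exact PTF.comp (g := fun a : Option F => (unsym F tm.k₁ a).map outA) (PTF.of_finite _)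
      PTF.snd
  refine ⟨_, PTF.comp hout hrun, fun a => ?_⟩
  obtain ⟨⟨N, hN⟩, hle⟩ := outs a
  simp only at hle
  -- the initial configuration is represented
  have h0 : CRel pos (unsym F) n (initList tm (List.map inA.invFun (ea a)))
      (s₀ (ea a)) := by
    refine ⟨rfl, rfl, ?_⟩
    have hemp : Rel pos (unsym F) n (fun k => ([] : List (tm.Γ k)))
        (List.replicate n ([] : List (Option F))) := by
      refine ⟨by simp, fun k => ?_⟩
      rw [List.getD_eq_getElem?_getD, List.getElem?_replicate]
      simp [hlt k]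
    have h1 := hemp.update hpos hlt tm.k₀ ((ea a).map (fun b => sym F tm.k₀ (inA.symm b)))
      (List.map inA.invFun (ea a)) (by
        rw [List.map_map, List.map_map]
        apply List.map_congr_left
        intro b _
        exact unsym_sym (Or.inr ⟨_, rfl⟩))
    have e : (initList tm (List.map inA.invFun (ea a))).stk =
        update (fun k => ([] : List (tm.Γ k))) tm.k₀ (List.map inA.invFun (ea a)) := by
      funext k
      by_cases hk : k = tm.k₀
      · subst hk
        simp [initList]
      · rw [update_of_ne hk]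
        simp [initList, hk]
    rw [e]
    exact h1
  have h1 := CRel.iterate hpos hlt tm.m hgood h0 N _ hN
  have h2 : (simStep pos (sym F) (unsym F) tm.m)^[time.eval (ea a).length] (s₀ (ea a)) =
      (simStep pos (sym F) (unsym F) tm.m)^[N] (s₀ (ea a)) := by
    obtain ⟨d, hd⟩ := Nat.exists_eq_add_of_le hle
    rw [hd, add_comm, iterate_add_apply]
    exact simStep_fixed _ _ h1.l d
  rw [h2]
  have h3 := h1.stk.eq tm.k₁
  have h4 : (haltList tm (List.map outA.invFun (eb (f a)))).stk tm.k₁ =
      List.map outA.invFun (eb (f a)) := by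
    simp [haltList]
  rw [h4] at h3
  have h5 : ∀ (l : List (Option F)) (l' : List (tm.Γ tm.k₁)),
      l.map (unsym F tm.k₁) = l'.map some →
      l.filterMap (fun a => (unsym F tm.k₁ a).map outA) = l'.map outA := by
    intro l
    induction l with
    | nil => intro l' h; cases l' with
      | nil => rfl
      | cons b l' => simp at h
    | cons a l ih =>
      intro l' h
      cases l' with
      | nil => simp at h
      | cons b l' =>
        simp only [List.map_cons, List.cons.injEq] at h
        rw [List.filterMap_cons]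
        simp [h.1, ih l' h.2]
  show List.filterMap (fun a => (unsym F tm.k₁ a).map outA) _ = _
  rw [h5 _ _ h3, List.map_map]
  conv_rhs => rw [← List.map_id (eb (f a))]
  apply List.map_congr_left
  intro b _
  exact outA.apply_symm_apply b

/-! ### the presentations of `Def_Complexity` -/


theorem pairEnc_eq (p : List Bool × List Bool) :
    Crest.Complexity.pairEnc p = p.1.map Sum.inl ++ p.2.map Sum.inr := rfl

protected theorem PTF.pairEnc : PTF Crest.Complexity.pairEnc := by
  have h : PTF (fun p : List Bool × List Bool =>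
      p.1.map (Sum.inl : Bool → Bool ⊕ Bool) ++ p.2.map Sum.inr) := by
    refine PTF.append (PTF.map (f := fun _ b => Sum.inl b) PTF.fst ?_)
      (PTF.map (f := fun _ b => Sum.inr b) PTF.snd ?_)
    · exact PTF.inl PTF.snd
    · exact PTF.inr PTF.snd
  exact h.of_eq (fun p => (pairEnc_eq p).symm)

protected theorem PTF.of_polyTime {f : List Bool → List Bool} (h : Crest.Complexity.PolyTime f) :
    PTF f := by
  obtain ⟨g, hg, h⟩ := PTF.of_polyTimeComputable h
  exact hg.of_eq h

/-- polynomial-time machine computable maps are `PT` -/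
protected theorem PT.of_polyTime {f : List Bool → List Bool} (h : Crest.Complexity.PolyTime f) : PT f :=
  PTF.toPT_list (PTF.of_polyTime h)


protected theorem PTF.polyTime {f : List Bool → List Bool} (h : PTF f) : Crest.Complexity.PolyTime f :=
  (PTF.toPT_list h).polyTime



protected theorem PTF.of_polyTimePred₂ {f : List Bool × List Bool → Bool}
    (h : Crest.Complexity.PolyTimePred₂ f) : PTF f := by
  obtain ⟨g, hg, h⟩ := PTF.of_polyTimeComputable h
  exact (PTF.optionGetD (PTF.head? (PTF.comp hg PTF.pairEnc)) (PTF.const false)).of_eq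
    (fun x => by rw [h x]; rfl)


end Crest.Agent.Lib.PT
private theorem rz_0769776b60 : type_of% @_root_.Crest.Agent.Lib.PT.OfTM.simAux.eq_def := @_root_.Crest.Agent.Lib.PT.OfTM.simAux.eq_def -- L36
private theorem rz_6567f7a755 : type_of% @_root_.Crest.Agent.Lib.PT.OfTM.simAux.eq_1 := @_root_.Crest.Agent.Lib.PT.OfTM.simAux.eq_1 -- L36
private theorem rz_305c0a5f07 : type_of% @_root_.Crest.Agent.Lib.PT.OfTM.simStep.eq_1 := @_root_.Crest.Agent.Lib.PT.OfTM.simStep.eq_1 -- L110
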