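import Crest.Agent.Lib.PT.Core

-- ▼ part Lib/PT/Raw
section

/-!
# Raw bit-string functions on top of the core

Everything here is about total functions `List Bool → List Bool` and the predicate `PT`.
-/

set_option linter.dupNamespace false

namespace Crest.Agent.Lib.PT

/-! ### the pairing -/

theorem pair_nil (y : List Bool) : pair [] y = false :: y := rfl

theorem pair_cons (b : Bool) (x y : List Bool) : pair (b :: x) y = true :: b :: pair x y := rfl

@[simp] theorem fst_pair (x y : List Bool) : fst (pair x y) = x := by
  induction x with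
  | nil => simp [pair_nil, fst]
  | cons b x ih => simp [pair_cons, fst, ih]

@[simp] theorem snd_pair (x y : List Bool) : snd (pair x y) = y := by
  induction x with
  | nil => simp [pair_nil, snd]
  | cons b x ih => simp [pair_cons, snd, ih]

theorem pair_inj {x y x' y' : List Bool} (h : pair x y = pair x' y') : x = x' ∧ y = y' := by
  have h1 := congrArg fst h
  have h2 := congrArg snd h
  simpa using And.intro h1 h2

@[simp] theorem length_pair (x y : List Bool) :
    (pair x y).length = 2 * x.length + 1 + y.length := by
  induction x with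
  | nil => simp [pair_nil]; omega
  | cons b x ih => simp [pair_cons, ih]; omega

theorem pair_ne_nil (x y : List Bool) : pair x y ≠ [] := by
  cases x <;> simp [pair_nil, pair_cons]

theorem length_fst_add_snd (z : List Bool) :
    2 * (fst z).length + (snd z).length ≤ z.length := by
  induction z using fst.induct with
  | case1 b r ih => simp only [fst, snd, List.length_cons]; omega
  | case2 z hz =>
    match z, hz with
    | [], _ => simp [fst, snd]
    | [true], _ => simp [fst, snd]
    | false :: y, _ => simp [fst, snd]
    | true :: b :: r, hz => exact (hz b r rfl).elim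

theorem length_fst_le (z : List Bool) : (fst z).length ≤ z.length := by
  have := length_fst_add_snd z; omega

theorem length_snd_le (z : List Bool) : (snd z).length ≤ z.length := by
  have := length_fst_add_snd z; omega

/-! ### growth bounds for iterates -/

theorem iterate_length_le {f : List Bool → List Bool} {c : ℕ}
    (h : ∀ x, (f x).length ≤ x.length + c) (x : List Bool) (i : ℕ) :
    (f^[i] x).length ≤ x.length + c * i := by
  induction i generalizing x with
  | zero => simp
  | succ i ih =>
    rw [Function.iterate_succ_apply]
    have h1 := ih (f x)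
    have h2 := h x
    have : c * (i + 1) = c * i + c := by ring
    omega

protected theorem PT.iter_add {f : List Bool → List Bool} (hf : PT f) {c : ℕ}
    (h : ∀ x, (f x).length ≤ x.length + c) :
    PT (fun z => f^[(Crest.Agent.Lib.PT.fst z).length] (Crest.Agent.Lib.PT.snd z)) := by
  refine PT.iter hf ⟨Polynomial.C (c + 1) * Polynomial.X, fun x n i hi => ?_⟩
  have h1 := iterate_length_le h x i
  simp only [Polynomial.eval_mul, Polynomial.eval_C, Polynomial.eval_X]
  have h2 : c * i ≤ c * n := Nat.mul_le_mul_left c hi
  nlinarith

protected theorem PT.of_eq {f g : List Bool → List Bool} (hf : PT f) (h : ∀ x, f x = g x) : PT g := by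
  have : f = g := funext h
  rwa [← this]

protected theorem PT.comp' {g f : List Bool → List Bool} (hg : PT g) (hf : PT f) {h : List Bool → List Bool}
    (e : ∀ x, g (f x) = h x) : PT h := (PT.comp hg hf).of_eq e

protected theorem PT.fst' {f : List Bool → List Bool} (hf : PT f) :
    PT (fun x => Crest.Agent.Lib.PT.fst (f x)) := PT.comp PT.fst hf

protected theorem PT.snd' {f : List Bool → List Bool} (hf : PT f) :
    PT (fun x => Crest.Agent.Lib.PT.snd (f x)) := PT.comp PT.snd hf

protected theorem PT.cons' (b : Bool) {f : List Bool → List Bool} (hf : PT f) :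
    PT (fun x => b :: f x) := PT.comp (PT.cons b) hf

protected theorem PT.tail' {f : List Bool → List Bool} (hf : PT f) :
    PT (fun x => (f x).tail) := PT.comp PT.tail hf

/-! ### case analysis -/

/-- `[true]` if nonempty, `[]` if empty. -/
def nonemptyTest (x : List Bool) : List Bool := if x = [] then [] else [true]

protected theorem PT.nonemptyTest : PT nonemptyTest := by
  have h1 : PT (fun z => (fun _ : List Bool => [true])^[(Crest.Agent.Lib.PT.fst z).length]
      (Crest.Agent.Lib.PT.snd z)) :=
    PT.iter_add (c := 1) (PT.const [true]) (by intro x; simp)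
  have h2 : PT (fun x => Crest.Agent.Lib.PT.pair x []) := PT.pair PT.id (PT.const [])
  refine PT.comp' h1 h2 (fun x => ?_)
  simp only [fst_pair, snd_pair]
  unfold nonemptyTest
  cases x with
  | nil => simp
  | cons b x =>
    simp only [List.length_cons, reduceCtorEq, if_false]
    rw [Function.iterate_succ_apply']

/-- Case distinction on the first symbol of `c x`. -/
protected theorem PT.cases {c f0 f1 f2 : List Bool → List Bool} (hc : PT c) (h0 : PT f0) (h1 : PT f1)
    (h2 : PT f2) :
    PT (fun x => match (c x) with
      | [] => f0 x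
      | true :: _ => f1 x
      | false :: _ => f2 x) := by
  have key : PT (fun x => if (c x).head? = some true then f1 x else
      (if (nonemptyTest (c x)).head? = some true then f2 x else f0 x)) :=
    PT.ite hc h1 (PT.ite (PT.comp PT.nonemptyTest hc) h2 h0)
  refine key.of_eq (fun x => ?_)
  rcases c x with _ | ⟨b, t⟩
  · simp [nonemptyTest]
  · cases b <;> simp [nonemptyTest]

/-- boolean-valued test realised by a bit string function with values `[true]`/`[false]`. -/
def PTB (p : List Bool → Bool) : Prop := PT (fun x => [p x])

protected theorem PTB.ite {p : List Bool → Bool} {f g : List Bool → List Bool} (hp : PTB p) (hf : PT f)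
    (hg : PT g) : PT (fun x => if p x then f x else g x) := by
  refine (PT.ite hp hf hg).of_eq (fun x => ?_)
  cases h : p x <;> simp

protected theorem PTB.of_eq {p q : List Bool → Bool} (hp : PTB p) (h : ∀ x, p x = q x) : PTB q := by
  have : p = q := funext h
  rwa [← this]

protected theorem PTB.const (b : Bool) : PTB (fun _ => b) := PT.const [b]

protected theorem PTB.comp {p : List Bool → Bool} {f : List Bool → List Bool} (hp : PTB p) (hf : PT f) :
    PTB (fun x => p (f x)) := PT.comp hp hf

protected theorem PTB.not {p : List Bool → Bool} (hp : PTB p) : PTB (fun x => !p x) := by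
  refine PT.of_eq (PTB.ite hp (PT.const [false]) (PT.const [true])) (fun x => ?_)
  cases h : p x <;> simp [h]

protected theorem PTB.and {p q : List Bool → Bool} (hp : PTB p) (hq : PTB q) :
    PTB (fun x => p x && q x) := by
  refine PT.of_eq (PTB.ite hp hq (PT.const [false])) (fun x => ?_)
  cases h : p x <;> simp [h]

protected theorem PTB.or {p q : List Bool → Bool} (hp : PTB p) (hq : PTB q) :
    PTB (fun x => p x || q x) := by
  refine PT.of_eq (PTB.ite hp (PT.const [true]) hq) (fun x => ?_)
  cases h : p x <;> simp [h]

/-- equality with a fixed string -/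
protected theorem PTB.eqConst (c : List Bool) : PTB (fun x => decide (x = c)) := by
  induction c with
  | nil =>
    refine (PT.cases PT.id (PT.const [true]) (PT.const [false]) (PT.const [false])).of_eq
      (fun x => ?_)
    rcases x with _ | ⟨b, t⟩
    · simp
    · cases b <;> simp
  | cons b c ih =>
    have h1 : PT (fun x => [decide (x.tail = c)]) := PT.comp ih PT.tail
    cases b with
    | true =>
      refine (PT.cases PT.id (PT.const [false]) h1 (PT.const [false])).of_eq (fun x => ?_)
      rcases x with _ | ⟨b, t⟩
      · simp
      · cases b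
        · simp
        · simp
    | false =>
      refine (PT.cases PT.id (PT.const [false]) (PT.const [false]) h1).of_eq (fun x => ?_)
      rcases x with _ | ⟨b, t⟩
      · simp
      · cases b
        · simp
        · simp

/-- finite table lookup -/
protected theorem PT.table (L : List (List Bool × List Bool)) (d : List Bool) :
    PT (fun x => ((L.find? (fun q => decide (x = q.1))).map Prod.snd).getD d) := by
  induction L with
  | nil => exact (PT.const d).of_eq (fun x => by simp)
  | cons q L ih =>
    refine (PTB.ite (PTB.eqConst q.1) (PT.const q.2) ih).of_eq (fun x => ?_)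
    by_cases h : x = q.1
    · simp [h]
    · simp [h]

/-! ### moving a symbol, reversing, taking, appending -/

/-- state `pair acc src`: move the first symbol of `src` to `acc` -/
def moveStep (s : List Bool) : List Bool :=
  match snd s with
  | [] => pair (fst s) []
  | true :: t => pair (true :: fst s) t
  | false :: t => pair (false :: fst s) t

protected theorem PT.moveStep : PT moveStep := by
  have ht : PT (fun s => (Crest.Agent.Lib.PT.snd s).tail) := PT.comp PT.tail PT.snd
  refine (PT.cases PT.snd (PT.pair PT.fst (PT.const [])) (PT.pair (PT.cons' true PT.fst) ht)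
    (PT.pair (PT.cons' false PT.fst) ht)).of_eq (fun s => ?_)
  unfold moveStep
  rcases Crest.Agent.Lib.PT.snd s with _ | ⟨b, t⟩
  · simp
  · cases b <;> simp

theorem moveStep_pair_nil (acc : List Bool) : moveStep (pair acc []) = pair acc [] := by
  simp [moveStep]

theorem moveStep_pair_cons (acc : List Bool) (b : Bool) (t : List Bool) :
    moveStep (pair acc (b :: t)) = pair (b :: acc) t := by
  cases b <;> simp [moveStep]

theorem moveStep_length (s : List Bool) : (moveStep s).length ≤ s.length + 2 := by
  have h := length_fst_add_snd s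
  unfold moveStep
  rcases hs : snd s with _ | ⟨b, t⟩
  · rw [hs] at h; simp at h ⊢; omega
  · rw [hs] at h
    cases b <;> simp at h ⊢ <;> omega

theorem moveStep_iterate (acc src : List Bool) (n : ℕ) :
    moveStep^[n] (pair acc src) = pair ((src.take n).reverse ++ acc) (src.drop n) := by
  induction n generalizing acc src with
  | zero => simp
  | succ n ih =>
    rw [Function.iterate_succ_apply]
    cases src with
    | nil => rw [moveStep_pair_nil, ih]; simp
    | cons b t => rw [moveStep_pair_cons, ih]; simp

/-- `(snd z).take (fst z).length`, reversed, together with the rest. -/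
protected theorem PT.moveN : PT (fun z => Crest.Agent.Lib.PT.pair
    (((Crest.Agent.Lib.PT.snd z).take (Crest.Agent.Lib.PT.fst z).length).reverse)
    ((Crest.Agent.Lib.PT.snd z).drop (Crest.Agent.Lib.PT.fst z).length)) := by
  have h1 := PT.iter_add (c := 2) PT.moveStep moveStep_length
  have h2 : PT (fun z => Crest.Agent.Lib.PT.pair (Crest.Agent.Lib.PT.fst z)
      (Crest.Agent.Lib.PT.pair [] (Crest.Agent.Lib.PT.snd z))) :=
    PT.pair PT.fst (PT.pair (PT.const []) PT.snd)
  refine PT.comp' h1 h2 (fun z => ?_)
  simp [moveStep_iterate]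

protected theorem PT.reverse : PT List.reverse := by
  have h : PT (fun x => Crest.Agent.Lib.PT.pair x x) := PT.pair PT.id PT.id
  have h' := PT.fst' (PT.comp PT.moveN h)
  refine h'.of_eq (fun x => ?_)
  simp

/-- `take` with unary counter -/
protected theorem PT.take : PT (fun z => (Crest.Agent.Lib.PT.snd z).take (Crest.Agent.Lib.PT.fst z).length) := by
  refine (PT.comp PT.reverse (PT.fst' PT.moveN)).of_eq (fun z => ?_)
  simp

protected theorem PT.drop : PT (fun z => (Crest.Agent.Lib.PT.snd z).drop (Crest.Agent.Lib.PT.fst z).length) := by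
  refine (PT.snd' PT.moveN).of_eq (fun z => ?_)
  simp

protected theorem PT.take' {f g : List Bool → List Bool} (hf : PT f) (hg : PT g) :
    PT (fun x => (g x).take (f x).length) := by
  refine (PT.comp PT.take (PT.pair hf hg)).of_eq (fun x => ?_)
  simp

protected theorem PT.drop' {f g : List Bool → List Bool} (hf : PT f) (hg : PT g) :
    PT (fun x => (g x).drop (f x).length) := by
  refine (PT.comp PT.drop (PT.pair hf hg)).of_eq (fun x => ?_)
  simp

/-- append -/
protected theorem PT.append' {f g : List Bool → List Bool} (hf : PT f) (hg : PT g) :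
    PT (fun x => f x ++ g x) := by
  -- start with `pair (g x) (reverse (f x))` and move everything
  have h1 := PT.iter_add (c := 2) PT.moveStep moveStep_length
  have hr : PT (fun x => (f x).reverse) := PT.comp PT.reverse hf
  have h2 : PT (fun x => Crest.Agent.Lib.PT.pair (f x)
      (Crest.Agent.Lib.PT.pair (g x) (f x).reverse)) :=
    PT.pair hf (PT.pair hg hr)
  refine (PT.fst' (PT.comp h1 h2)).of_eq (fun x => ?_)
  simp [moveStep_iterate, List.take_of_length_le]

/-! ### unary arithmetic: strings of prescribed polynomial length -/

/-- state `pair y s`, step: `pair y (y ++ s)` -/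
def appStep (s : List Bool) : List Bool := pair (fst s) (fst s ++ snd s)

protected theorem PT.appStep : PT appStep := PT.pair PT.fst (PT.append' PT.fst PT.snd)

theorem appStep_fst (s : List Bool) (i : ℕ) : 0 < i → fst (appStep^[i] s) = fst s := by
  intro hi
  obtain ⟨j, rfl⟩ : ∃ j, i = j + 1 := ⟨i - 1, by omega⟩
  clear hi
  induction j with
  | zero => simp [appStep]
  | succ j ih => rw [Function.iterate_succ_apply']; simp [appStep] at ih ⊢; exact ih

theorem appStep_fst' (s : List Bool) (i : ℕ) : fst (appStep^[i] s) = fst s := by
  rcases Nat.eq_zero_or_pos i with rfl | hi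
  · rfl
  · exact appStep_fst s i hi

theorem appStep_length (s : List Bool) (i : ℕ) :
    (appStep^[i] s).length ≤ s.length + i * (1 + s.length) := by
  induction i with
  | zero => simp
  | succ i ih =>
    rw [Function.iterate_succ_apply']
    have h1 : (appStep (appStep^[i] s)).length ≤ (appStep^[i] s).length + (1 + s.length) := by
      have h2 := length_fst_add_snd (appStep^[i] s)
      have h3 := appStep_fst' s i
      have h4 := length_fst_le s
      generalize appStep^[i] s = t at h2 h3 ⊢
      simp only [appStep, h3, length_pair, List.length_append] at h2 ⊢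
      omega
    have : (i + 1) * (1 + s.length) = i * (1 + s.length) + (1 + s.length) := by ring
    omega

theorem appStep_iterate_pair (y s : List Bool) (n : ℕ) :
    (snd (appStep^[n] (pair y s))).length = n * y.length + s.length := by
  induction n with
  | zero => simp
  | succ n ih =>
    rw [Function.iterate_succ_apply']
    have h3 := appStep_fst' (pair y s) n
    simp only [fst_pair] at h3
    unfold appStep
    change (snd (pair (fst (appStep^[n] (pair y s)))
      (fst (appStep^[n] (pair y s)) ++ snd (appStep^[n] (pair y s))))).length = _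
    rw [h3]
    simp [ih]
    ring

/-- a string whose length is the product of two lengths -/
protected theorem PT.mulLen {f g : List Bool → List Bool} (hf : PT f) (hg : PT g) :
    ∃ h, PT h ∧ ∀ x, (h x).length = (f x).length * (g x).length := by
  have h1 : PT (fun z => appStep^[(Crest.Agent.Lib.PT.fst z).length]
      (Crest.Agent.Lib.PT.snd z)) := by
    refine PT.iter PT.appStep ⟨Polynomial.X + Polynomial.X * (1 + Polynomial.X), ?_⟩
    intro x n i hi
    refine (appStep_length x i).trans ?_
    simp only [Polynomial.eval_add, Polynomial.eval_mul, Polynomial.eval_X, Polynomial.eval_one]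
    have : i * (1 + x.length) ≤ (x.length + n) * (1 + (x.length + n)) :=
      Nat.mul_le_mul (by omega) (by omega)
    omega
  have h2 : PT (fun x => Crest.Agent.Lib.PT.pair (f x) (Crest.Agent.Lib.PT.pair (g x) [])) :=
    PT.pair hf (PT.pair hg (PT.const []))
  refine ⟨_, PT.snd' (PT.comp h1 h2), fun x => ?_⟩
  simp only [fst_pair, snd_pair]
  rw [appStep_iterate_pair]
  simp

/-- for every polynomial there is a poly-time string function at least that long -/
protected theorem PT.polyLen (p : Polynomial ℕ) :
    ∃ h, PT h ∧ ∀ x, p.eval x.length = (h x).length := by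
  induction p using Polynomial.induction_on with
  | C a => exact ⟨_, PT.const (List.replicate a true), fun x => by simp⟩
  | add p q hp hq =>
    obtain ⟨f, hf, hf'⟩ := hp
    obtain ⟨g, hg, hg'⟩ := hq
    exact ⟨_, PT.append' hf hg, fun x => by simp [hf', hg']⟩
  | monomial n a ih =>
    obtain ⟨f, hf, hf'⟩ := ih
    obtain ⟨h, hh, hh'⟩ := PT.mulLen hf PT.id
    refine ⟨h, hh, fun x => ?_⟩
    rw [hh', ← hf' x]
    simp [pow_succ, mul_assoc]

end Crest.Agent.Lib.PT
end

-- ▼ part Lib/PT/Typed

/-!
# Typed layer: codes and poly-time functions between coded types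

`PTF f` for `f : α → β` says that some `g` with `PT g` satisfies `g (enc a) = enc (f a)`.
-/

set_option linter.dupNamespace false

namespace Crest.Agent.Lib.PT

/-- A type with an injective bit-string code. -/
class PTCode (α : Type) where
  /-- the code -/
  enc : α → List Bool
  /-- codes are injective -/
  inj : Function.Injective enc

/-- the code of an element -/
def enc {α : Type} [PTCode α] (a : α) : List Bool := PTCode.enc a

theorem enc_injective {α : Type} [PTCode α] : Function.Injective (enc : α → List Bool) :=
  PTCode.inj

@[simp] theorem enc_inj {α : Type} [PTCode α] {a b : α} : enc a = enc b ↔ a = b :=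
  enc_injective.eq_iff

/-- size of the code -/
def sz {α : Type} [PTCode α] (a : α) : ℕ := (enc a).length

/-- `f` is computable in polynomial time on codes. -/
@[fun_prop]
def PTF {α β : Type} [PTCode α] [PTCode β] (f : α → β) : Prop :=
  ∃ g, PT g ∧ ∀ a, g (enc a) = enc (f a)

/-- transport a code along an injection -/
@[reducible] def PTCode.ofInj {α β : Type} [PTCode β] (e : α → β) (he : Function.Injective e) : PTCode α where
  enc a := enc (e a)
  inj := enc_injective.comp he

/-! ### basic instances -/

/-- raw bit strings, coded by themselves -/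
structure Bits where
  /-- the underlying list -/
  val : List Bool

instance : PTCode Bits where
  enc x := x.val
  inj := by
    rintro ⟨a⟩ ⟨b⟩ h
    exact congrArg Bits.mk h

instance : PTCode Unit where
  enc _ := []
  inj _ _ _ := rfl

instance : PTCode Bool where
  enc b := [b]
  inj a b h := by simpa using h

instance {α β : Type} [PTCode α] [PTCode β] : PTCode (α × β) where
  enc p := pair (enc p.1) (enc p.2)
  inj := by
    rintro ⟨a, b⟩ ⟨a', b'⟩ h
    obtain ⟨h1, h2⟩ := pair_inj h
    simp only [enc_inj] at h1 h2
    rw [h1, h2]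

/-- binary natural numbers, least significant bit first -/
instance : PTCode ℕ where
  enc n := n.bits
  inj := by
    intro a b h
    have := congrArg (List.foldr (fun b n => Nat.bit b n) 0) h
    have key : ∀ n : ℕ, List.foldr (fun b n => Nat.bit b n) 0 n.bits = n := by
      intro n
      induction n using Nat.binaryRec' with
      | zero => simp
      | bit b n h ih => rw [Nat.bits_append_bit n b h]; simp [ih]
    simpa [key] using this

/-- unary natural numbers -/
structure Un where
  /-- the value -/
  val : ℕ

instance : PTCode Un where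
  enc n := List.replicate n.val true
  inj := by
    intro a b h
    have := congrArg List.length h
    cases a; cases b
    simpa using this

instance {α : Type} [PTCode α] : PTCode (Option α) where
  enc o := match o with
    | none => []
    | some a => true :: enc a
  inj := by
    rintro (_ | a) (_ | b) h <;> simp_all

instance {α β : Type} [PTCode α] [PTCode β] : PTCode (α ⊕ β) where
  enc o := match o with
    | Sum.inl a => false :: enc a
    | Sum.inr b => true :: enc b
  inj := by
    rintro (a | a) (b | b) h <;> simp_all

/-- code of a list -/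
def encList {α : Type} [PTCode α] : List α → List Bool
  | [] => []
  | a :: l => pair (enc a) (encList l)

instance {α : Type} [PTCode α] : PTCode (List α) where
  enc := encList
  inj := by
    intro l
    induction l with
    | nil =>
      intro l' h
      cases l' with
      | nil => rfl
      | cons a l => exact absurd h.symm (pair_ne_nil _ _)
    | cons a l ih =>
      intro l' h
      cases l' with
      | nil => exact absurd h (pair_ne_nil _ _)
      | cons a' l' =>
        obtain ⟨h1, h2⟩ := pair_inj h
        rw [enc_inj.1 h1, ih h2]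

instance (n : ℕ) : PTCode (Fin n) := PTCode.ofInj (fun i => (i : ℕ)) Fin.val_injective

instance {α : Type} [PTCode α] (p : α → Prop) : PTCode (Subtype p) :=
  PTCode.ofInj Subtype.val Subtype.val_injective

@[simp] theorem enc_bits (x : Bits) : enc x = x.val := rfl
@[simp] theorem enc_unit (x : Unit) : enc x = [] := rfl
@[simp] theorem enc_bool (b : Bool) : enc b = [b] := rfl
@[simp] theorem enc_prod {α β : Type} [PTCode α] [PTCode β] (p : α × β) :
    enc p = pair (enc p.1) (enc p.2) := rfl
theorem enc_nat (n : ℕ) : enc n = n.bits := rfl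
@[simp] theorem enc_un (n : Un) : enc n = List.replicate n.val true := rfl
@[simp] theorem enc_none {α : Type} [PTCode α] : enc (none : Option α) = [] := rfl
@[simp] theorem enc_some {α : Type} [PTCode α] (a : α) : enc (some a) = true :: enc a := rfl
@[simp] theorem enc_inl {α β : Type} [PTCode α] [PTCode β] (a : α) :
    enc (Sum.inl a : α ⊕ β) = false :: enc a := rfl
@[simp] theorem enc_inr {α β : Type} [PTCode α] [PTCode β] (b : β) :
    enc (Sum.inr b : α ⊕ β) = true :: enc b := rfl
@[simp] theorem enc_nil {α : Type} [PTCode α] : enc ([] : List α) = [] := rfl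
@[simp] theorem enc_cons {α : Type} [PTCode α] (a : α) (l : List α) :
    enc (a :: l) = pair (enc a) (enc l) := rfl
theorem enc_fin {n : ℕ} (i : Fin n) : enc i = (i : ℕ).bits := rfl
theorem enc_subtype {α : Type} [PTCode α] {p : α → Prop} (a : Subtype p) :
    enc a = enc a.1 := rfl

/-! ### the category structure -/

section basic

variable {α β γ δ : Type} [PTCode α] [PTCode β] [PTCode γ] [PTCode δ]

protected theorem PTF.of_eq {f g : α → β} (hf : PTF f) (h : ∀ a, f a = g a) : PTF g := by
  have : f = g := funext h
  rwa [← this]

@[fun_prop]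
protected theorem PTF.id : PTF (fun a : α => a) := ⟨_, PT.id, fun _ => rfl⟩

@[fun_prop]
protected theorem PTF.const (b : β) : PTF (fun _ : α => b) := ⟨_, PT.const (enc b), fun _ => rfl⟩

@[fun_prop]
protected theorem PTF.comp {g : β → γ} {f : α → β} (hg : PTF g) (hf : PTF f) : PTF (fun a => g (f a)) := by
  obtain ⟨g', hg', hg⟩ := hg
  obtain ⟨f', hf', hf⟩ := hf
  exact ⟨_, PT.comp hg' hf', fun a => by rw [hf, hg]⟩

@[fun_prop]
protected theorem PTF.fst : PTF (fun p : α × β => p.1) := ⟨_, PT.fst, fun p => by simp⟩

@[fun_prop]
protected theorem PTF.snd : PTF (fun p : α × β => p.2) := ⟨_, PT.snd, fun p => by simp⟩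

@[fun_prop]
protected theorem PTF.prodMk {f : α → β} {g : α → γ} (hf : PTF f) (hg : PTF g) :
    PTF (fun a => (f a, g a)) := by
  obtain ⟨g', hg', hg⟩ := hg
  obtain ⟨f', hf', hf⟩ := hf
  exact ⟨_, PT.pair hf' hg', fun a => by rw [hf, hg]; rfl⟩

end basic

section more

variable {α β γ δ ε : Type} [PTCode α] [PTCode β] [PTCode γ] [PTCode δ] [PTCode ε]

/-- two-argument version -/
@[reducible] def PTF₂ (f : α → β → γ) : Prop := PTF (fun p : α × β => f p.1 p.2)

/-- `fun_prop` after unfolding `PTF₂` -/
macro "pt_prop" : tactic => `(tactic| ((try dsimp only [PTF₂]); fun_prop))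

protected theorem PTF.comp₂ {f : β → γ → δ} (hf : PTF₂ f) {g : α → β} {h : α → γ} (hg : PTF g)
    (hh : PTF h) : PTF (fun a => f (g a) (h a)) :=
  PTF.comp (f := fun a => (g a, h a)) hf (PTF.prodMk hg hh)

/-- polynomial bound on the size of the output -/
protected theorem PTF.bound {f : α → β} (hf : PTF f) : ∃ p : Polynomial ℕ, ∀ a, sz (f a) ≤ p.eval (sz a) := by
  obtain ⟨g, hg, h⟩ := hf
  obtain ⟨p, hp⟩ := PT.bound hg
  exact ⟨p, fun a => by rw [sz, ← h]; exact hp _⟩

/-! ### raw functions -/

protected theorem PT.toPTF {f : List Bool → List Bool} (hf : PT f) :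
    PTF (fun x : Bits => Bits.mk (f x.val)) :=
  ⟨f, hf, fun _ => rfl⟩

protected theorem PTF.toPT {f : List Bool → List Bool} (hf : PTF (fun x : Bits => Bits.mk (f x.val))) :
    PT f := by
  obtain ⟨g, hg, h⟩ := hf
  exact hg.of_eq (fun x => h ⟨x⟩)

/-- the code as a function to raw bit strings -/
def toBits (a : α) : Bits := ⟨enc a⟩

@[fun_prop]
protected theorem PTF.toBits : PTF (fun a : α => toBits a) :=
  ⟨_, PT.id, fun _ => rfl⟩

/-! ### booleans -/

@[fun_prop]
protected theorem PTF.cond {c : α → Bool} {f g : α → β} (hc : PTF c) (hf : PTF f) (hg : PTF g) :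
    PTF (fun a => bif c a then f a else g a) := by
  obtain ⟨c', hc', hc⟩ := hc
  obtain ⟨f', hf', hf⟩ := hf
  obtain ⟨g', hg', hg⟩ := hg
  refine ⟨_, PT.ite hc' hf' hg', fun a => ?_⟩
  simp only [hc, enc_bool]
  cases c a <;> simp [hf, hg]

/-- poly-time decidable predicates -/
@[fun_prop]
def PTPred (p : α → Prop) : Prop := ∃ f : α → Bool, PTF f ∧ ∀ a, p a ↔ f a = true

@[fun_prop]
protected theorem PTPred.toPTF {p : α → Prop} [DecidablePred p] (hp : PTPred p) :
    PTF (fun a => decide (p a)) := by
  obtain ⟨f, hf, h⟩ := hp
  exact hf.of_eq (fun a => by simp [h])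

protected theorem PTPred.of_ptf {p : α → Prop} [DecidablePred p] (hp : PTF (fun a => decide (p a))) :
    PTPred p := ⟨_, hp, fun a => by simp⟩

@[fun_prop]
protected theorem PTF.toPTPred {f : α → Bool} (hf : PTF f) : PTPred (fun a => f a = true) :=
  ⟨f, hf, fun _ => Iff.rfl⟩

protected theorem PTPred.iff_ptf {f : α → Bool} : PTPred (fun a => f a = true) ↔ PTF f := by
  refine ⟨fun h => h.toPTF.of_eq (fun a => by simp), PTF.toPTPred⟩

protected theorem PTPred.of_iff {p q : α → Prop} (hp : PTPred p) (h : ∀ a, p a ↔ q a) : PTPred q := by
  have : p = q := funext fun a => propext (h a)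
  rwa [← this]

@[fun_prop]
protected theorem PTF.ite {p : α → Prop} [DecidablePred p] {f g : α → β} (hc : PTPred p) (hf : PTF f)
    (hg : PTF g) : PTF (fun a => if p a then f a else g a) :=
  (PTF.cond hc.toPTF hf hg).of_eq (fun a => by by_cases h : p a <;> simp [h])

@[fun_prop]
protected theorem PTF.not {f : α → Bool} (hf : PTF f) : PTF (fun a => !f a) :=
  (PTF.cond hf (PTF.const false) (PTF.const true)).of_eq (fun a => by cases f a <;> rfl)

@[fun_prop]
protected theorem PTF.and {f g : α → Bool} (hf : PTF f) (hg : PTF g) : PTF (fun a => f a && g a) :=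
  (PTF.cond hf hg (PTF.const false)).of_eq (fun a => by cases f a <;> rfl)

@[fun_prop]
protected theorem PTF.or {f g : α → Bool} (hf : PTF f) (hg : PTF g) : PTF (fun a => f a || g a) :=
  (PTF.cond hf (PTF.const true) hg).of_eq (fun a => by cases f a <;> rfl)

@[fun_prop]
protected theorem PTF.xor {f g : α → Bool} (hf : PTF f) (hg : PTF g) : PTF (fun a => Bool.xor (f a) (g a)) :=
  (PTF.cond hf hg.not hg).of_eq (fun a => by cases f a <;> simp)

@[fun_prop]
protected theorem PTPred.not {p : α → Prop} (hp : PTPred p) : PTPred (fun a => ¬ p a) := by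
  obtain ⟨f, hf, h⟩ := hp
  exact ⟨_, hf.not, fun a => by simp [h]⟩

@[fun_prop]
protected theorem PTPred.and {p q : α → Prop} (hp : PTPred p) (hq : PTPred q) :
    PTPred (fun a => p a ∧ q a) := by
  obtain ⟨f, hf, h⟩ := hp
  obtain ⟨g, hg, h'⟩ := hq
  exact ⟨_, hf.and hg, fun a => by simp [h, h']⟩

@[fun_prop]
protected theorem PTPred.or {p q : α → Prop} (hp : PTPred p) (hq : PTPred q) :
    PTPred (fun a => p a ∨ q a) := by
  obtain ⟨f, hf, h⟩ := hp
  obtain ⟨g, hg, h'⟩ := hq
  exact ⟨_, hf.or hg, fun a => by simp [h, h']⟩

@[fun_prop]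
protected theorem PTPred.imp {p q : α → Prop} (hp : PTPred p) (hq : PTPred q) :
    PTPred (fun a => p a → q a) :=
  (hp.not.or hq).of_iff (fun a => by tauto)

@[fun_prop]
protected theorem PTPred.iff {p q : α → Prop} (hp : PTPred p) (hq : PTPred q) :
    PTPred (fun a => p a ↔ q a) :=
  ((hp.imp hq).and (hq.imp hp)).of_iff (fun a => by tauto)

@[fun_prop]
protected theorem PTPred.comp {p : β → Prop} {f : α → β} (hp : PTPred p) (hf : PTF f) :
    PTPred (fun a => p (f a)) := by
  obtain ⟨g, hg, h⟩ := hp
  exact ⟨_, PTF.comp hg hf, fun a => by simp [h]⟩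

@[fun_prop]
protected theorem PTPred.const (p : Prop) : PTPred (fun _ : α => p) := by
  classical
  exact ⟨_, PTF.const (decide p), fun a => by simp⟩

/-! ### finite case analysis by table lookup -/

/-- any function on a finite coded type is poly-time -/
protected theorem PTF.of_finite [Finite α] (f : α → β) : PTF f := by
  classical
  have := Fintype.ofFinite α
  rcases isEmpty_or_nonempty α with h | ⟨⟨a0⟩⟩
  · exact ⟨_, PT.id, fun a => (h.false a).elim⟩
  let L : List (List Bool × List Bool) :=
    (Finset.univ : Finset α).toList.map (fun a => (enc a,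
      enc (f a)))
  refine ⟨_, PT.table L [], fun a => ?_⟩
  have key : ∀ l : List α, a ∈ l → ((List.find? (fun q : List Bool × List Bool =>
      decide (enc a = q.1))
        (l.map (fun a => (enc a, enc (f a))))).map
        Prod.snd).getD [] = enc (f a) := by
    intro l
    induction l with
    | nil => intro h; simp at h
    | cons b l ih =>
      intro h
      by_cases hab : a = b
      · subst hab; simp
      · have hm : a ∈ l := by
          rcases List.mem_cons.1 h with h | h
          · exact absurd h hab
          · exact h
        have := ih hm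
        simpa [hab] using this
  exact key _ (by simp)

/-- case distinction over a finite type: if each branch is poly-time so is the whole -/
protected theorem PTF.finite_cases [Finite α] {f : α → β → γ} (h : ∀ a, PTF (f a)) :
    PTF (fun p : α × β => f p.1 p.2) := by
  classical
  have := Fintype.ofFinite α
  have key : ∀ l : List α, ∀ d : List Bool, ∃ g, PT g ∧ ∀ a b, a ∈ l →
      g (pair (enc a) (enc b)) =
        enc (f a b) := by
    intro l d
    induction l with
    | nil => exact ⟨_, PT.id, fun a b h => by simp at h⟩
    | cons a0 l ih =>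
      obtain ⟨g, hg, hg'⟩ := ih
      obtain ⟨g0, hg0, hg0'⟩ := h a0
      refine ⟨_, PTB.ite (PTB.comp (PTB.eqConst (enc a0)) PT.fst)
        (PT.comp hg0 PT.snd) hg, fun a b hm => ?_⟩
      by_cases hab : a = a0
      · subst hab; simp [hg0']
      · have hm : a ∈ l := by
          rcases List.mem_cons.1 hm with h | h
          · exact absurd h hab
          · exact h
        simp [hab, hg' a b hm]
  obtain ⟨g, hg, hg'⟩ := key (Finset.univ : Finset α).toList []
  exact ⟨g, hg, fun p => hg' p.1 p.2 (by simp)⟩

protected theorem PTF.finite_cases' [Finite δ] {c : α → δ} {f : δ → α → γ} (hc : PTF c)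
    (h : ∀ d, PTF (f d)) : PTF (fun a => f (c a) a) :=
  PTF.comp (f := fun a => (c a, a)) (PTF.finite_cases h) (PTF.prodMk hc PTF.id)

/-! ### sums and options -/

@[fun_prop]
protected theorem PTF.inl {f : α → β} (hf : PTF f) : PTF (fun a => (Sum.inl (f a) : β ⊕ γ)) := by
  obtain ⟨f', hf', hf⟩ := hf
  exact ⟨_, PT.cons' false hf', fun a => by rw [hf]; rfl⟩

@[fun_prop]
protected theorem PTF.inr {f : α → γ} (hf : PTF f) : PTF (fun a => (Sum.inr (f a) : β ⊕ γ)) := by
  obtain ⟨f', hf', hf⟩ := hf
  exact ⟨_, PT.cons' true hf', fun a => by rw [hf]; rfl⟩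

@[fun_prop]
protected theorem PTF.optSome {f : α → β} (hf : PTF f) : PTF (fun a => some (f a)) := by
  obtain ⟨f', hf', hf⟩ := hf
  exact ⟨_, PT.cons' true hf', fun a => by rw [hf]; rfl⟩

protected theorem PTF.sumCasesOn {s : α → β ⊕ γ} {f : α → β → δ} {g : α → γ → δ} (hs : PTF s)
    (hf : PTF₂ f) (hg : PTF₂ g) :
    PTF (fun a => match s a with | Sum.inl b => f a b | Sum.inr c => g a c) := by
  obtain ⟨s', hs', hs⟩ := hs
  obtain ⟨f', hf', hf⟩ := hf
  obtain ⟨g', hg', hg⟩ := hg
  refine ⟨_, PT.ite hs' (PT.comp hg' (PT.pair PT.id (PT.tail' hs')))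
    (PT.comp hf' (PT.pair PT.id (PT.tail' hs'))), fun a => ?_⟩
  simp only [hs]
  cases h : s a with
  | inl b => simpa [h] using hf (a, b)
  | inr c => simpa [h] using hg (a, c)

protected theorem PTF.optionCasesOn {s : α → Option β} {f : α → δ} {g : α → β → δ} (hs : PTF s)
    (hf : PTF f) (hg : PTF₂ g) :
    PTF (fun a => match s a with | none => f a | some b => g a b) := by
  obtain ⟨s', hs', hs⟩ := hs
  obtain ⟨f', hf', hf⟩ := hf
  obtain ⟨g', hg', hg⟩ := hg
  refine ⟨_, PT.ite hs' (PT.comp hg' (PT.pair PT.id (PT.tail' hs'))) hf', fun a => ?_⟩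
  simp only [hs]
  cases h : s a with
  | none => simpa [h] using hf a
  | some c => simpa [h] using hg (a, c)

protected theorem PTF.optionMap {s : α → Option β} {g : α → β → δ} (hs : PTF s) (hg : PTF₂ g) :
    PTF (fun a => (s a).map (g a)) :=
  (PTF.optionCasesOn hs (PTF.const none) (f := fun _ => none) (g := fun a b => some (g a b))
    (PTF.optSome hg)).of_eq (fun a => by cases s a <;> rfl)

protected theorem PTF.optionBind {s : α → Option β} {g : α → β → Option δ} (hs : PTF s) (hg : PTF₂ g) :
    PTF (fun a => (s a).bind (g a)) :=
  (PTF.optionCasesOn hs (PTF.const none) hg).of_eq (fun a => by cases s a <;> rfl)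

@[fun_prop]
protected theorem PTF.optionGetD {s : α → Option β} {d : α → β} (hs : PTF s) (hd : PTF d) :
    PTF (fun a => (s a).getD (d a)) :=
  (PTF.optionCasesOn hs hd (g := fun _ b => b) PTF.snd).of_eq (fun a => by cases s a <;> rfl)

@[fun_prop]
protected theorem PTF.isSome {s : α → Option β} (hs : PTF s) : PTF (fun a => (s a).isSome) :=
  (PTF.optionCasesOn hs (PTF.const false) (g := fun _ _ => true) (PTF.const true)).of_eq
    (fun a => by cases s a <;> rfl)

/-! ### lists: constructors and case distinction -/

@[fun_prop]
protected theorem PTF.listCons {f : α → β} {g : α → List β} (hf : PTF f) (hg : PTF g) :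
    PTF (fun a => f a :: g a) := by
  obtain ⟨f', hf', hf⟩ := hf
  obtain ⟨g', hg', hg⟩ := hg
  exact ⟨_, PT.pair hf' hg', fun a => by rw [hf, hg]; rfl⟩

protected theorem PTF.listCasesOn {s : α → List β} {f : α → δ} {g : α → β → List β → δ} (hs : PTF s)
    (hf : PTF f) (hg : PTF (fun p : α × β × List β => g p.1 p.2.1 p.2.2)) :
    PTF (fun a => match s a with | [] => f a | b :: l => g a b l) := by
  obtain ⟨s', hs', hs⟩ := hs
  obtain ⟨f', hf', hf⟩ := hf
  obtain ⟨g', hg', hg⟩ := hg
  refine ⟨_, PT.ite (PT.comp PT.nonemptyTest hs') (PT.comp hg' (PT.pair PT.id hs')) hf',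
    fun a => ?_⟩
  simp only [hs]
  cases h : s a with
  | nil => simpa [h, nonemptyTest] using hf a
  | cons b l =>
    have := hg (a, b, l)
    simpa [h, nonemptyTest, pair_ne_nil] using this

@[fun_prop]
protected theorem PTF.head? {s : α → List β} (hs : PTF s) : PTF (fun a => (s a).head?) :=
  (PTF.listCasesOn hs (f := fun _ => none) (PTF.const none) (g := fun _ b _ => some b)
    (by fun_prop)).of_eq (fun a => by cases s a <;> rfl)

@[fun_prop]
protected theorem PTF.tail {s : α → List β} (hs : PTF s) : PTF (fun a => (s a).tail) :=
  (PTF.listCasesOn hs (f := fun _ => []) (PTF.const []) (g := fun _ _ l => l)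
    (by fun_prop)).of_eq (fun a => by cases s a <;> rfl)

@[fun_prop]
protected theorem PTF.isEmpty {s : α → List β} (hs : PTF s) : PTF (fun a => (s a).isEmpty) :=
  (PTF.listCasesOn hs (f := fun _ => true) (PTF.const true) (g := fun _ _ _ => false)
    (by fun_prop)).of_eq (fun a => by cases s a <;> rfl)

end more

end Crest.Agent.Lib.PT
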